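import Mathlib

/-!
Autocorrelations on a finite abelian group, the positivity identities used in the
three-term progression argument, and Fourier identities.
-/

namespace Vale.Agent.P057.ThreeAP

open Finset
open scoped ComplexConjugate

set_option linter.unusedSectionVars false

variable {G : Type*} [AddCommGroup G] [Fintype G] [DecidableEq G]

/-- Indicator function of a finite set, with real values. -/
def fInd (s : Finset G) : G → ℝ := fun x => if x ∈ s then 1 else 0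

/-- Autocorrelation. -/
def acorr (f : G → ℝ) (x : G) : ℝ := ∑ u, f u * f (u + x)

/-- Self convolution. -/
def sconv (f : G → ℝ) (x : G) : ℝ := ∑ u, f u * f (x - u)

/-- The set of `v ∈ D` all of whose translates by the entries of `s` lie in `A`. -/
def sieve (A D : Finset G) {k : ℕ} (s : Fin k → G) : Finset G :=
  D.filter fun v => ∀ i, s i + v ∈ A

lemma fInd_nonneg (s : Finset G) (x : G) : 0 ≤ fInd s x := by
  unfold fInd; split_ifs <;> norm_num

lemma fInd_le_one (s : Finset G) (x : G) : fInd s x ≤ 1 := by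
  unfold fInd; split_ifs <;> norm_num

lemma sum_fInd (s : Finset G) : ∑ x, fInd s x = s.card := by
  simp [fInd]

lemma sum_fInd_mul (s : Finset G) (f : G → ℝ) : ∑ x, fInd s x * f x = ∑ x ∈ s, f x := by
  simp [fInd, Finset.sum_ite_mem]

lemma acorr_shift (f : G → ℝ) (v w : G) :
    acorr f (w - v) = ∑ s, f (s + v) * f (s + w) := by
  refine Fintype.sum_equiv (Equiv.addRight (-v)) _ _ fun u => ?_
  simp only [Equiv.coe_addRight]
  congr 2 <;> abel

lemma sconv_shift (f : G → ℝ) (t v w : G) :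
    sconv f (t + w - v) = ∑ s, f (s - v) * f (t + w - s) := by
  refine Fintype.sum_equiv (Equiv.addRight v) _ _ fun u => ?_
  simp only [Equiv.coe_addRight]
  congr 2 <;> abel

lemma acorr_pow_shift (f : G → ℝ) (k : ℕ) (v w : G) :
    acorr f (w - v) ^ k = ∑ s : Fin k → G, (∏ i, f (s i + v)) * ∏ i, f (s i + w) := by
  rw [acorr_shift, Fintype.sum_pow]
  simp_rw [Finset.prod_mul_distrib]

lemma sconv_pow_shift (f : G → ℝ) (k : ℕ) (t v w : G) :
    sconv f (t + w - v) ^ k = ∑ s : Fin k → G, (∏ i, f (s i - v)) * ∏ i, f (t + w - s i) := by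
  rw [sconv_shift, Fintype.sum_pow]
  simp_rw [Finset.prod_mul_distrib]

lemma acorr_kernel (f : G → ℝ) (k : ℕ) (D : Finset G) :
    ∑ v ∈ D, ∑ w ∈ D, acorr f (w - v) ^ k
      = ∑ s : Fin k → G, (∑ v ∈ D, ∏ i, f (s i + v)) ^ 2 := by
  simp_rw [acorr_pow_shift, pow_two, Finset.sum_mul_sum]
  calc _ = ∑ v ∈ D, ∑ s : Fin k → G, ∑ w ∈ D, (∏ i, f (s i + v)) * ∏ i, f (s i + w) :=
        Finset.sum_congr rfl fun v _ => Finset.sum_comm
    _ = _ := Finset.sum_comm

lemma acorr_kernel_nonneg (f : G → ℝ) (k : ℕ) (D : Finset G) :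
    0 ≤ ∑ v ∈ D, ∑ w ∈ D, acorr f (w - v) ^ k := by
  rw [acorr_kernel]; positivity

/-- Shifted convolution moments are dominated by centred autocorrelation moments. -/
lemma sconv_kernel_le (f : G → ℝ) (k : ℕ) (D : Finset G) (t : G) :
    ∑ v ∈ D, ∑ w ∈ D, sconv f (t + w - v) ^ k
      ≤ ∑ v ∈ D, ∑ w ∈ D, acorr f (w - v) ^ k := by
  set X : (Fin k → G) → ℝ := fun s => ∑ v ∈ D, ∏ i, f (s i - v) with hX
  set Y : (Fin k → G) → ℝ := fun s => ∑ w ∈ D, ∏ i, f (t + w - s i) with hY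
  have h1 : ∑ v ∈ D, ∑ w ∈ D, sconv f (t + w - v) ^ k = ∑ s, X s * Y s := by
    simp_rw [sconv_pow_shift, hX, hY, Finset.sum_mul_sum]
    calc _ = ∑ v ∈ D, ∑ s : Fin k → G, ∑ w ∈ D,
            (∏ i, f (s i - v)) * ∏ i, f (t + w - s i) :=
          Finset.sum_congr rfl fun v _ => Finset.sum_comm
      _ = _ := Finset.sum_comm
  have key : ∀ Z : (Fin k → G) → G → ℝ, ∑ s, (∑ v ∈ D, Z s v) ^ 2
      = ∑ v ∈ D, ∑ w ∈ D, ∑ s, Z s v * Z s w := by
    intro Z
    simp_rw [pow_two, Finset.sum_mul_sum]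
    rw [Finset.sum_comm]
    exact Finset.sum_congr rfl fun v _ => Finset.sum_comm
  have h2 : ∑ s, X s ^ 2 = ∑ v ∈ D, ∑ w ∈ D, acorr f (w - v) ^ k := by
    rw [hX, key, Finset.sum_comm]
    refine Finset.sum_congr rfl fun v _ => Finset.sum_congr rfl fun w _ => ?_
    simp_rw [← Finset.prod_mul_distrib]
    rw [← Fintype.sum_pow fun u : G => f (u - w) * f (u - v)]
    congr 1
    refine Fintype.sum_equiv (Equiv.subRight w) _ _ fun u => ?_
    simp only [Equiv.subRight_apply]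
    congr 2
    abel
  have h3 : ∑ s, Y s ^ 2 = ∑ v ∈ D, ∑ w ∈ D, acorr f (w - v) ^ k := by
    rw [hY, key]
    refine Finset.sum_congr rfl fun v _ => Finset.sum_congr rfl fun w _ => ?_
    simp_rw [← Finset.prod_mul_distrib]
    rw [← Fintype.sum_pow fun u : G => f (t + v - u) * f (t + w - u)]
    congr 1
    refine Fintype.sum_equiv (Equiv.subLeft (t + v)) _ _ fun u => ?_
    simp only [Equiv.subLeft_apply]
    congr 2
    abel
  have hM := acorr_kernel_nonneg f k D
  have hcs := Finset.sum_mul_sq_le_sq_mul_sq (Finset.univ : Finset (Fin k → G)) X Y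
  rw [h1]
  rw [h2, h3, ← pow_two] at hcs
  exact (le_abs_self _).trans (abs_le_of_sq_le_sq hcs hM)

lemma prod_fInd (A : Finset G) {k : ℕ} (s : Fin k → G) (v : G) :
    ∏ i, fInd A (s i + v) = if ∀ i, s i + v ∈ A then 1 else 0 := by
  unfold fInd
  split_ifs with h
  · exact Finset.prod_eq_one fun i _ => if_pos (h i)
  · push Not at h
    obtain ⟨i, hi⟩ := h
    exact Finset.prod_eq_zero (Finset.mem_univ i) (if_neg hi)

lemma sieve_sum (A D : Finset G) (k : ℕ) (φ : G → ℝ) :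
    ∑ s : Fin k → G, ∑ v ∈ sieve A D s, ∑ w ∈ sieve A D s, φ (w - v)
      = ∑ v ∈ D, ∑ w ∈ D, φ (w - v) * acorr (fInd A) (w - v) ^ k := by
  have : ∀ s : Fin k → G, ∑ v ∈ sieve A D s, ∑ w ∈ sieve A D s, φ (w - v)
      = ∑ v ∈ D, ∑ w ∈ D, φ (w - v) * ((∏ i, fInd A (s i + v)) * ∏ i, fInd A (s i + w)) := by
    intro s
    simp_rw [sieve, Finset.sum_filter, prod_fInd]
    refine Finset.sum_congr rfl fun v _ => ?_
    by_cases h : ∀ i, s i + v ∈ A
    · simp [h]
    · simp [h]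
  simp_rw [this, acorr_pow_shift, Finset.mul_sum]
  rw [Finset.sum_comm]
  exact Finset.sum_congr rfl fun v _ => Finset.sum_comm

lemma sum_sieve_card (A D : Finset G) (k : ℕ) :
    ∑ s : Fin k → G, ((sieve A D s).card : ℝ) = D.card * (A.card : ℝ) ^ k := by
  have : ∀ s : Fin k → G, ((sieve A D s).card : ℝ) = ∑ v ∈ D, ∏ i, fInd A (s i + v) := by
    intro s; simp [sieve, prod_fInd]
  simp_rw [this]
  rw [Finset.sum_comm]
  have h : ∀ v, ∑ s : Fin k → G, ∏ i, fInd A (s i + v) = (A.card : ℝ) ^ k := by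
    intro v
    rw [← Fintype.sum_pow fun u : G => fInd A (u + v)]
    congr 1
    rw [← sum_fInd A]
    exact Fintype.sum_equiv (Equiv.addRight v) _ _ fun u => rfl
  simp [h]

/-- Fourier transform, as an unnormalised sum. -/
noncomputable def ft (f : G → ℝ) (ψ : AddChar G ℂ) : ℂ := ∑ x, (f x : ℂ) * ψ x

/-- Character sum over a finite set. -/
noncomputable def cs (s : Finset G) (ψ : AddChar G ℂ) : ℂ := ∑ x ∈ s, ψ x

lemma conj_char (ψ : AddChar G ℂ) (x : G) : conj (ψ x) = ψ (-x) := by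
  rw [AddChar.map_neg_eq_conj]

lemma normSq_cs (s : Finset G) (ψ : AddChar G ℂ) :
    (Complex.normSq (cs s ψ) : ℂ) = ∑ x ∈ s, ∑ y ∈ s, ψ (x - y) := by
  rw [← Complex.mul_conj, cs, map_sum, Finset.sum_mul_sum]
  simp_rw [conj_char, ← AddChar.map_add_eq_mul, ← sub_eq_add_neg]

lemma normSq_cs_le (s : Finset G) (ψ : AddChar G ℂ) :
    Complex.normSq (cs s ψ) ≤ (s.card : ℝ) ^ 2 := by
  rw [Complex.normSq_eq_norm_sq]
  gcongr
  refine (norm_sum_le _ _).trans ?_
  simp [AddChar.norm_apply]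

lemma sum_normSq_ft_mul (f : G → ℝ) (z : G) :
    ∑ ψ : AddChar G ℂ, (Complex.normSq (ft f ψ) : ℂ) * ψ z
      = (Fintype.card G : ℂ) * (acorr f z : ℂ) := by
  have h : ∀ ψ : AddChar G ℂ, (Complex.normSq (ft f ψ) : ℂ) * ψ z
      = ∑ x, ∑ y, ((f x : ℂ) * f y) * ψ (x - y + z) := by
    intro ψ
    rw [← Complex.mul_conj, ft, map_sum, Finset.sum_mul_sum, Finset.sum_mul]
    simp_rw [Finset.sum_mul]
    refine Finset.sum_congr rfl fun x _ => Finset.sum_congr rfl fun y _ => ?_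
    simp only [map_mul, Complex.conj_ofReal, conj_char, sub_eq_add_neg, AddChar.map_add_eq_mul]
    ring
  simp_rw [h]
  rw [Finset.sum_comm]
  simp_rw [Finset.sum_comm (s := (Finset.univ : Finset (AddChar G ℂ))), ← Finset.mul_sum,
    AddChar.sum_apply_eq_ite]
  have h0 : ∀ x y : G, x - y + z = 0 ↔ y = x + z := by
    intro x y
    constructor
    · intro h; rw [← sub_eq_zero, ← neg_eq_zero, ← h]; abel
    · rintro rfl; abel
  simp [h0, acorr, Finset.mul_sum, mul_comm]

lemma fourier_one (f : G → ℝ) (X : Finset G) :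
    ∑ ψ : AddChar G ℂ, Complex.normSq (ft f ψ) * Complex.normSq (cs X ψ)
      = (Fintype.card G : ℝ) * ∑ x ∈ X, ∑ y ∈ X, acorr f (x - y) := by
  apply Complex.ofReal_injective
  push_cast
  simp_rw [normSq_cs, Finset.mul_sum]
  rw [Finset.sum_comm]
  refine Finset.sum_congr rfl fun x _ => ?_
  rw [Finset.sum_comm]
  exact Finset.sum_congr rfl fun y _ => sum_normSq_ft_mul f _

lemma fourier_two (f : G → ℝ) (X T : Finset G) :
    ∑ ψ : AddChar G ℂ,
        Complex.normSq (ft f ψ) * Complex.normSq (cs X ψ) * Complex.normSq (cs T ψ)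
      = (Fintype.card G : ℝ) * ∑ x ∈ X, ∑ y ∈ X, ∑ s ∈ T, ∑ s' ∈ T,
          acorr f (x - y + (s - s')) := by
  apply Complex.ofReal_injective
  push_cast
  have h : ∀ ψ : AddChar G ℂ,
      (Complex.normSq (ft f ψ) : ℂ) * Complex.normSq (cs X ψ) * Complex.normSq (cs T ψ)
        = ∑ x ∈ X, ∑ y ∈ X, ∑ s ∈ T, ∑ s' ∈ T,
            (Complex.normSq (ft f ψ) : ℂ) * ψ (x - y + (s - s')) := by
    intro ψ
    simp_rw [normSq_cs, AddChar.map_add_eq_mul, ← mul_assoc, ← Finset.mul_sum, ← Finset.sum_mul,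
      ← Finset.mul_sum]
  simp_rw [h, Finset.mul_sum]
  rw [Finset.sum_comm]
  refine Finset.sum_congr rfl fun x _ => ?_
  rw [Finset.sum_comm]
  refine Finset.sum_congr rfl fun y _ => ?_
  rw [Finset.sum_comm]
  refine Finset.sum_congr rfl fun s _ => ?_
  rw [Finset.sum_comm]
  exact Finset.sum_congr rfl fun s' _ => sum_normSq_ft_mul f _

end Vale.Agent.P057.ThreeAP
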