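import Vale.Agent.P057.ThreeAP.Basic

/-!
Bohr sets: covering, a pigeonholed stable radius, and the dilate by two.
-/

namespace Vale.Agent.P057.ThreeAP

open Finset

set_option linter.unusedSectionVars false

variable {G : Type*} [AddCommGroup G] [Fintype G] [DecidableEq G]

/-- The Bohr set with frequency set `Γ` and radius `ρ`. -/
noncomputable def bohr (Γ : Finset (AddChar G ℂ)) (ρ : ℝ) : Finset G :=
  Finset.univ.filter fun x => ∀ ψ ∈ Γ, ‖ψ x - 1‖ ≤ ρ

lemma mem_bohr {Γ : Finset (AddChar G ℂ)} {ρ : ℝ} {x : G} :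
    x ∈ bohr Γ ρ ↔ ∀ ψ ∈ Γ, ‖ψ x - 1‖ ≤ ρ := by simp [bohr]

lemma bohr_mono {Γ : Finset (AddChar G ℂ)} {ρ ρ' : ℝ} (h : ρ ≤ ρ') :
    bohr Γ ρ ⊆ bohr Γ ρ' := fun _ hx => mem_bohr.2 fun ψ hψ => (mem_bohr.1 hx ψ hψ).trans h

lemma bohr_anti {Γ Γ' : Finset (AddChar G ℂ)} {ρ : ℝ} (h : Γ ⊆ Γ') :
    bohr Γ' ρ ⊆ bohr Γ ρ := fun _ hx => mem_bohr.2 fun ψ hψ => mem_bohr.1 hx ψ (h hψ)

lemma zero_mem_bohr {Γ : Finset (AddChar G ℂ)} {ρ : ℝ} (h : 0 ≤ ρ) :
    (0 : G) ∈ bohr Γ ρ := mem_bohr.2 fun ψ _ => by simpa using h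

lemma bohr_card_pos {Γ : Finset (AddChar G ℂ)} {ρ : ℝ} (h : 0 ≤ ρ) :
    0 < (bohr Γ ρ).card := Finset.card_pos.2 ⟨0, zero_mem_bohr h⟩

lemma neg_mem_bohr {Γ : Finset (AddChar G ℂ)} {ρ : ℝ} {x : G} (h : x ∈ bohr Γ ρ) :
    -x ∈ bohr Γ ρ := mem_bohr.2 fun ψ hψ => by
  have h2 := mem_bohr.1 h ψ hψ
  have h1 : ψ (-x) - 1 = ψ (-x) * (1 - ψ x) := by
    rw [mul_sub, mul_one, ← AddChar.map_add_eq_mul, neg_add_cancel, AddChar.map_zero_eq_one]
  rw [h1, norm_mul, AddChar.norm_apply, one_mul, norm_sub_rev]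
  exact h2

lemma norm_mul_sub_one {a b : ℂ} (ha : ‖a‖ = 1) : ‖a * b - 1‖ ≤ ‖a - 1‖ + ‖b - 1‖ := by
  have h1 : a * b - 1 = a * (b - 1) + (a - 1) := by ring
  rw [h1]
  refine (norm_add_le _ _).trans ?_
  rw [norm_mul, ha, one_mul, add_comm]

lemma add_mem_bohr {Γ : Finset (AddChar G ℂ)} {ρ ρ' r : ℝ} {x y : G}
    (hx : x ∈ bohr Γ ρ) (hy : y ∈ bohr Γ ρ') (h : ρ + ρ' ≤ r) :
    x + y ∈ bohr Γ r := mem_bohr.2 fun ψ hψ => by
  rw [AddChar.map_add_eq_mul]
  have := mem_bohr.1 hx ψ hψ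
  have := mem_bohr.1 hy ψ hψ
  have := norm_mul_sub_one (b := ψ y) (AddChar.norm_apply ψ x)
  linarith

lemma sub_mem_bohr {Γ : Finset (AddChar G ℂ)} {ρ ρ' r : ℝ} {x y : G}
    (hx : x ∈ bohr Γ ρ) (hy : y ∈ bohr Γ ρ') (h : ρ + ρ' ≤ r) :
    x - y ∈ bohr Γ r := by
  rw [sub_eq_add_neg]; exact add_mem_bohr hx (neg_mem_bohr hy) h

lemma sum_mem_bohr {Γ : Finset (AddChar G ℂ)} {ρ : ℝ} (h0 : 0 ≤ ρ) :
    ∀ {m : ℕ} (q : Fin m → G), (∀ i, q i ∈ bohr Γ ρ) → ∑ i, q i ∈ bohr Γ (m * ρ) := by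
  intro m
  induction m with
  | zero => intro q _; simpa using zero_mem_bohr (Γ := Γ) le_rfl
  | succ m ih =>
    intro q hq
    rw [Fin.sum_univ_succ]
    refine add_mem_bohr (hq 0) (ih _ fun i => hq i.succ) ?_
    push_cast; linarith

lemma bohr_two (Γ : Finset (AddChar G ℂ)) {ρ : ℝ} (h : 2 ≤ ρ) : bohr Γ ρ = Finset.univ := by
  refine Finset.eq_univ_of_forall fun x => mem_bohr.2 fun ψ _ => ?_
  refine (norm_sub_le _ _).trans ?_
  rw [AddChar.norm_apply, norm_one]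
  linarith

lemma bohr_double (Γ : Finset (AddChar G ℂ)) {ρ : ℝ} (hρ : 0 < ρ) :
    ((bohr Γ ρ).card : ℝ) ≤ (36 : ℝ) ^ Γ.card * (bohr Γ (ρ / 2)).card := by
  have aux : ∀ t : ℝ, -ρ ≤ t → t ≤ ρ → ∃ i : Fin 6, -ρ + (i : ℕ) * (ρ / 3) ≤ t ∧
      t ≤ -ρ + (i : ℕ) * (ρ / 3) + ρ / 3 := by
    intro t h1 h2
    rcases le_or_gt t (-ρ + ρ / 3) with a | a
    · exact ⟨0, by simpa using h1, by simpa using a⟩
    rcases le_or_gt t (-ρ + 2 * (ρ / 3)) with b | b
    · exact ⟨1, by norm_num; linarith, by norm_num; linarith⟩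
    rcases le_or_gt t 0 with c | c
    · exact ⟨2, by norm_num; linarith, by norm_num; linarith⟩
    rcases le_or_gt t (ρ / 3) with d | d
    · exact ⟨3, by norm_num; linarith, by norm_num; linarith⟩
    rcases le_or_gt t (2 * (ρ / 3)) with e | e
    · exact ⟨4, by norm_num; linarith, by norm_num; linarith⟩
    · exact ⟨5, by norm_num; linarith, by norm_num; linarith⟩
  choose! g hg1 hg2 using aux
  let cell : G → (↥Γ → Fin 6 × Fin 6) :=
    fun x ψ => (g ((ψ.1 x - 1).re), g ((ψ.1 x - 1).im))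
  have hmaps : ∀ a ∈ bohr Γ ρ, cell a ∈ (Finset.univ : Finset (↥Γ → Fin 6 × Fin 6)) :=
    fun a _ => Finset.mem_univ _
  have hfib : ∀ c : ↥Γ → Fin 6 × Fin 6,
      ((bohr Γ ρ).filter fun x => cell x = c).card ≤ (bohr Γ (ρ / 2)).card := by
    intro c
    rcases ((bohr Γ ρ).filter fun x => cell x = c).eq_empty_or_nonempty with he | ⟨y, hy⟩
    · simp [he]
    refine Finset.card_le_card_of_injOn (fun x => x - y) ?_ ?_
    · intro x hx
      simp only [Finset.mem_coe, Finset.mem_filter] at hx hy ⊢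
      refine mem_bohr.2 fun ψ hψ => ?_
      have hxy : cell x ⟨ψ, hψ⟩ = cell y ⟨ψ, hψ⟩ := by rw [hx.2, hy.2]
      simp only [cell, Prod.mk.injEq] at hxy
      have hnx : ‖ψ x - 1‖ ≤ ρ := mem_bohr.1 hx.1 ψ hψ
      have hny : ‖ψ y - 1‖ ≤ ρ := mem_bohr.1 hy.1 ψ hψ
      have r1 := abs_le.1 ((Complex.abs_re_le_norm _).trans hnx)
      have r2 := abs_le.1 ((Complex.abs_re_le_norm _).trans hny)
      have i1 := abs_le.1 ((Complex.abs_im_le_norm _).trans hnx)
      have i2 := abs_le.1 ((Complex.abs_im_le_norm _).trans hny)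
      have a1 := hg1 _ r1.1 r1.2
      have a2 := hg2 _ r1.1 r1.2
      have a3 := hg1 _ r2.1 r2.2
      have a4 := hg2 _ r2.1 r2.2
      have b1 := hg1 _ i1.1 i1.2
      have b2 := hg2 _ i1.1 i1.2
      have b3 := hg1 _ i2.1 i2.2
      have b4 := hg2 _ i2.1 i2.2
      rw [hxy.1] at a1 a2
      rw [hxy.2] at b1 b2
      have hsub : ψ (x - y) - 1 = (ψ x - ψ y) * ψ (-y) := by
        rw [sub_mul, ← AddChar.map_add_eq_mul, ← AddChar.map_add_eq_mul, ← sub_eq_add_neg,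
          add_neg_cancel, AddChar.map_zero_eq_one]
      rw [hsub, norm_mul, AddChar.norm_apply, mul_one]
      have hre : |(ψ x - ψ y).re| ≤ ρ / 3 := by
        simp only [Complex.sub_re, Complex.one_re] at *
        exact abs_le.2 ⟨by linarith, by linarith⟩
      have him : |(ψ x - ψ y).im| ≤ ρ / 3 := by
        simp only [Complex.sub_im, Complex.one_im] at *
        exact abs_le.2 ⟨by linarith, by linarith⟩
      have hsq : ‖ψ x - ψ y‖ ^ 2 ≤ (ρ / 2) ^ 2 := by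
        rw [← Complex.normSq_eq_norm_sq, Complex.normSq_apply]
        nlinarith [sq_abs (ψ x - ψ y).re, sq_abs (ψ x - ψ y).im, abs_nonneg (ψ x - ψ y).re,
          abs_nonneg (ψ x - ψ y).im]
      exact abs_le_of_sq_le_sq' hsq (by positivity) |>.2
    · intro x _ z _ hxz
      simpa using hxz
  have := Finset.card_le_mul_card_image_of_maps_to hmaps (bohr Γ (ρ / 2)).card
    fun c _ => hfib c
  have h36 : (Finset.univ : Finset (↥Γ → Fin 6 × Fin 6)).card = 36 ^ Γ.card := by simp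
  rw [h36, mul_comm] at this
  exact_mod_cast this

lemma bohr_lower (Γ : Finset (AddChar G ℂ)) (i : ℕ) :
    (Fintype.card G : ℝ) ≤ (36 : ℝ) ^ (Γ.card * i) * (bohr Γ (2 / 2 ^ i)).card := by
  induction i with
  | zero => simp [bohr_two]
  | succ i ih =>
    refine ih.trans ?_
    have := bohr_double Γ (ρ := 2 / 2 ^ i) (by positivity)
    rw [Nat.mul_succ, pow_add, mul_assoc, pow_succ (2 : ℝ) i, ← div_div]
    exact mul_le_mul_of_nonneg_left this (by positivity)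

lemma le_one_add_inv_pow {n : ℕ} (hn : 0 < n) : (2 : ℝ) ≤ (1 + 1 / (n : ℝ)) ^ n := by
  have h := one_add_mul_le_pow (a := 1 / (n : ℝ))
    (by linarith [show (0 : ℝ) ≤ 1 / (n : ℝ) by positivity]) n
  have h1 : (n : ℝ) * (1 / n) = 1 := by field_simp
  linarith

/-- `bohr Γ r` barely changes when the radius moves by `μ`. -/
structure Stable (Γ : Finset (AddChar G ℂ)) (r μ : ℝ) : Prop where
  pos : 0 < μ
  le : μ ≤ r
  ratio : 4000 * ((bohr Γ (r + μ)).card : ℝ) ≤ 4001 * (bohr Γ (r - μ)).card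

lemma Stable.out {Γ : Finset (AddChar G ℂ)} {r μ : ℝ} (h : Stable Γ r μ) :
    4000 * ((bohr Γ (r + μ)).card : ℝ) ≤ 4001 * (bohr Γ r).card := by
  refine h.ratio.trans ?_
  gcongr
  exact bohr_mono (by linarith [h.pos])

lemma Stable.inn {Γ : Finset (AddChar G ℂ)} {r μ : ℝ} (h : Stable Γ r μ) :
    4000 * ((bohr Γ r).card : ℝ) ≤ 4001 * (bohr Γ (r - μ)).card := by
  refine le_trans ?_ h.ratio
  gcongr
  exact bohr_mono (by linarith [h.pos])

lemma exists_stable (Γ : Finset (AddChar G ℂ)) {d : ℕ} (hd : Γ.card + 1 ≤ d) {ρ : ℝ}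
    (hρ : 0 < ρ) : ∃ r, ρ / 2 ≤ r ∧ r ≤ ρ ∧ Stable Γ r (ρ / (96000 * d)) := by
  have hdpos : (0 : ℝ) < d := by exact_mod_cast lt_of_lt_of_le (Nat.succ_pos _) hd
  set N := 24000 * d with hN
  have hNpos : 0 < N := by omega
  set st := ρ / (2 * N) with hst
  have hstpos : 0 < st := by positivity
  set c : ℕ → ℝ := fun j => ((bohr Γ (ρ / 2 + j * st)).card : ℝ) with hc
  have hcpos : 0 < c 0 := by
    simp only [hc]
    exact_mod_cast bohr_card_pos (by positivity)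
  have hex : ∃ j < N, 4000 * c (j + 1) ≤ 4001 * c j := by
    by_contra hcon
    push Not at hcon
    have hgrow : ∀ j ≤ N, (1 + 1 / ((4000 : ℕ) : ℝ)) ^ j * c 0 ≤ c j := by
      intro j hj
      induction j with
      | zero => simp
      | succ j ih =>
        have := ih (by omega)
        have := hcon j (by omega)
        rw [pow_succ]
        push_cast
        nlinarith
    have h2 : (2 : ℝ) ^ (6 * d) ≤ (1 + 1 / ((4000 : ℕ) : ℝ)) ^ N := by
      have e : N = 4000 * (6 * d) := by omega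
      rw [e, pow_mul _ 4000]
      exact pow_le_pow_left₀ (by norm_num) (le_one_add_inv_pow (by norm_num)) _
    have h3 : c N ≤ (36 : ℝ) ^ Γ.card * c 0 := by
      have : ρ / 2 + (N : ℝ) * st = ρ := by rw [hst]; field_simp; ring
      simp only [hc, this, Nat.cast_zero, zero_mul, add_zero]
      exact bohr_double Γ hρ
    have h4 : (36 : ℝ) ^ Γ.card < (2 : ℝ) ^ (6 * d) := by
      rw [pow_mul]
      calc (36 : ℝ) ^ Γ.card ≤ ((2 : ℝ) ^ 6) ^ Γ.card :=
            pow_le_pow_left₀ (by norm_num) (by norm_num) _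
        _ < ((2 : ℝ) ^ 6) ^ d := pow_lt_pow_right₀ (by norm_num) (by omega)
    have := hgrow N le_rfl
    nlinarith [mul_le_mul_of_nonneg_right h2 hcpos.le, mul_lt_mul_of_pos_right h4 hcpos]
  obtain ⟨j, hj, hjr⟩ := hex
  refine ⟨ρ / 2 + j * st + st / 2, ?_, ?_, ⟨by positivity, ?_, ?_⟩⟩
  · have : 0 ≤ (j : ℝ) * st := by positivity
    linarith
  · have hjN : (j : ℝ) + 1 ≤ N := by exact_mod_cast hj
    have : (N : ℝ) * st = ρ / 2 := by rw [hst]; field_simp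
    nlinarith
  · have : ρ / (96000 * d) = st / 2 := by
      rw [hst, hN]; push_cast; field_simp; ring
    rw [this]
    have : 0 ≤ (j : ℝ) * st := by positivity
    linarith
  · have e : ρ / (96000 * d) = st / 2 := by
      rw [hst, hN]; push_cast; field_simp; ring
    rw [e]
    have e1 : ρ / 2 + j * st + st / 2 + st / 2 = ρ / 2 + ((j + 1 : ℕ) : ℝ) * st := by
      push_cast; ring
    have e2 : ρ / 2 + j * st + st / 2 - st / 2 = ρ / 2 + (j : ℝ) * st := by ring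
    rw [e1, e2]
    exact hjr

section Dilate

variable (half : G ≃+ G)

/-- The frequency set whose Bohr sets are twice those of `Γ`. -/
noncomputable def dilF (Γ : Finset (AddChar G ℂ)) : Finset (AddChar G ℂ) := by
  classical
  exact Γ.image fun ψ => ψ.compAddMonoidHom half.toAddMonoidHom

lemma mem_bohr_dil {Γ : Finset (AddChar G ℂ)} {ρ : ℝ} {x : G} :
    x ∈ bohr (dilF half Γ) ρ ↔ half x ∈ bohr Γ ρ := by
  simp [mem_bohr, dilF]

lemma card_dilF (Γ : Finset (AddChar G ℂ)) : (dilF half Γ).card ≤ Γ.card := by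
  classical
  exact Finset.card_image_le

lemma card_bohr_dil (Γ : Finset (AddChar G ℂ)) (ρ : ℝ) :
    (bohr (dilF half Γ) ρ).card = (bohr Γ ρ).card :=
  Finset.card_bij (fun x _ => half x) (fun x hx => (mem_bohr_dil half).1 hx)
    (fun x _ y _ h => half.injective h)
    (fun y hy => ⟨half.symm y, (mem_bohr_dil half).2 (by simpa using hy), by simp⟩)

lemma bohr_dil_subset (hhalf : ∀ x, half x + half x = x) {Γ : Finset (AddChar G ℂ)} {ρ r : ℝ}
    (hr : 2 * ρ ≤ r) : bohr (dilF half Γ) ρ ⊆ bohr Γ r := by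
  intro x hx
  have h := (mem_bohr_dil half).1 hx
  rw [← hhalf x]
  exact add_mem_bohr h h (by linarith)

lemma Stable.dil {Γ : Finset (AddChar G ℂ)} {r μ : ℝ} (h : Stable Γ r μ) :
    Stable (dilF half Γ) r μ :=
  ⟨h.pos, h.le, by rw [card_bohr_dil, card_bohr_dil]; exact h.ratio⟩

end Dilate

end Vale.Agent.P057.ThreeAP
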