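import Vale.Agent.P057.ThreeAP.Bohr

/-!
A relative Chang lemma through a Riesz product.
-/

namespace Vale.Agent.P057.ThreeAP

open Finset
open scoped ComplexConjugate

set_option linter.unusedSectionVars false

variable {G : Type*} [AddCommGroup G] [Fintype G] [DecidableEq G]

lemma exp_quad_aux {y : ℝ} (h : |y| ≤ 1) : Real.exp y ≤ 1 + y + y ^ 2 := by
  linarith [(abs_le.1 (Real.abs_exp_sub_one_sub_id_le h)).2]

/-- Real part of a rotated character. -/
noncomputable def rot (c : ℂ) (ψ : AddChar G ℂ) (x : G) : ℝ := (c * ψ x).re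

lemma abs_rot_le {c : ℂ} (hc : ‖c‖ ≤ 1) (ψ : AddChar G ℂ) (x : G) : |rot c ψ x| ≤ 1 :=
  (Complex.abs_re_le_norm _).trans (by rw [norm_mul, AddChar.norm_apply, mul_one]; exact hc)

/-- The combination of the characters in `Λ` with coefficients in `{0, 1, -1}`. -/
noncomputable def combo (Λ : Finset (AddChar G ℂ)) (e : ↥Λ → Fin 3) : AddChar G ℂ :=
  ∑ i, if e i = 1 then (i : AddChar G ℂ) else if e i = 2 then -(i : AddChar G ℂ) else 0

/-- `Λ` is dissociated relative to the set `Q`. -/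
def Dissoc (Q : Finset G) (Λ : Finset (AddChar G ℂ)) : Prop :=
  ∀ e : ↥Λ → Fin 3, e ≠ 0 → 2 * ‖cs Q (combo Λ e)‖ ≤ Q.card

lemma combo_apply (Λ : Finset (AddChar G ℂ)) (e : ↥Λ → Fin 3) (x : G) :
    combo Λ e x = ∏ i, if e i = 1 then (i : AddChar G ℂ) x
      else if e i = 2 then (i : AddChar G ℂ) (-x) else 1 := by
  rw [combo, AddChar.sum_apply]
  refine Finset.prod_congr rfl fun i _ => ?_
  split_ifs <;> simp

lemma riesz_expand (Λ : Finset (AddChar G ℂ)) (c : ↥Λ → ℂ) (x : G) :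
    ((∏ i : ↥Λ, (1 + rot (c i) (i : AddChar G ℂ) x / 4) : ℝ) : ℂ)
      = ∑ e : ↥Λ → Fin 3, (∏ i, ![1, c i / 8, conj (c i) / 8] (e i)) * combo Λ e x := by
  have h : ∀ i : ↥Λ, ((1 + rot (c i) i x / 4 : ℝ) : ℂ)
      = ∑ j : Fin 3, ![1, c i / 8, conj (c i) / 8] j *
        (if j = 1 then (i : AddChar G ℂ) x else if j = 2 then (i : AddChar G ℂ) (-x) else 1) := by
    intro i
    rw [Fin.sum_univ_three]
    simp only [Matrix.cons_val_zero, Matrix.cons_val_one, Matrix.cons_val_two, Matrix.head_cons,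
      Matrix.tail_cons, show (0 : Fin 3) ≠ 1 by decide, show (0 : Fin 3) ≠ 2 by decide,
      show (2 : Fin 3) ≠ 1 by decide, if_true, if_false, mul_one]
    rw [← conj_char, rot]
    push_cast
    rw [Complex.re_eq_add_conj, map_mul]
    ring
  rw [Complex.ofReal_prod, Finset.prod_congr rfl fun i _ => h i, Fintype.prod_sum]
  refine Finset.sum_congr rfl fun e _ => ?_
  rw [combo_apply, ← Finset.prod_mul_distrib]

lemma map_sum_prod {ι : Type*} (s : Finset ι) (q : ι → G) (ψ : AddChar G ℂ) :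
    ψ (∑ i ∈ s, q i) = ∏ i ∈ s, ψ (q i) :=
  map_prod ψ.toMonoidHom (fun i => Multiplicative.ofAdd (q i)) s

lemma riesz_sum_le (Q E Ein : Finset G) (Λ : Finset (AddChar G ℂ)) {m : ℕ} (hm : m = 2 * Λ.card)
    (hQ : Q.Nonempty) (hE : ∀ x ∈ Ein, ∀ q : Fin m → G, (∀ i, q i ∈ Q) → x - ∑ i, q i ∈ E)
    (hd : Dissoc Q Λ) (c : ↥Λ → ℂ) (hc : ∀ i, ‖c i‖ ≤ 1) :
    ∑ x ∈ Ein, ∏ i : ↥Λ, (1 + rot (c i) (i : AddChar G ℂ) x / 4) ≤ 2 * E.card := by
  set P : G → ℝ := fun x => ∏ i : ↥Λ, (1 + rot (c i) (i : AddChar G ℂ) x / 4) with hP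
  have hPnn : ∀ x, 0 ≤ P x := fun x => Finset.prod_nonneg fun i _ => by
    linarith [abs_le.1 (abs_rot_le (hc i) (i : AddChar G ℂ) x)]
  set QQ := Fintype.piFinset fun _ : Fin m => Q
  have hQc : (0 : ℝ) < Q.card := by exact_mod_cast Finset.card_pos.2 hQ
  have h1 : (Q.card : ℝ) ^ m * ∑ x ∈ Ein, P x ≤ ∑ y ∈ E, ∑ q ∈ QQ, P (y + ∑ i, q i) := by
    calc (Q.card : ℝ) ^ m * ∑ x ∈ Ein, P x = ∑ q ∈ QQ, ∑ x ∈ Ein, P x := by simp [QQ]
      _ ≤ ∑ q ∈ QQ, ∑ y ∈ E, P (y + ∑ i, q i) := by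
          refine Finset.sum_le_sum fun q hq => ?_
          have : ∑ x ∈ Ein, P x
              = ∑ y ∈ Ein.image (fun x => x - ∑ i, q i), P (y + ∑ i, q i) := by
            rw [Finset.sum_image fun a _ b _ h => by simpa using h]
            simp
          rw [this]
          refine Finset.sum_le_sum_of_subset_of_nonneg ?_ fun _ _ _ => hPnn _
          intro y hy
          obtain ⟨x, hx, rfl⟩ := Finset.mem_image.1 hy
          exact hE x hx q (Fintype.mem_piFinset.1 hq)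
      _ = _ := Finset.sum_comm
  have h2 : ((∑ y ∈ E, ∑ q ∈ QQ, P (y + ∑ i, q i) : ℝ) : ℂ)
      = ∑ e : ↥Λ → Fin 3, (∏ i, ![1, c i / 8, conj (c i) / 8] (e i))
          * cs E (combo Λ e) * cs Q (combo Λ e) ^ m := by
    push_cast
    have h3 : ∀ e : ↥Λ → Fin 3, cs Q (combo Λ e) ^ m
        = ∑ q ∈ QQ, combo Λ e (∑ i, q i) := by
      intro e
      rw [cs, Finset.sum_pow']
      exact Finset.sum_congr rfl fun q _ => (map_sum_prod _ _ _).symm
    simp_rw [hP, riesz_expand, AddChar.map_add_eq_mul, h3, cs, Finset.mul_sum, Finset.sum_mul]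
    calc _ = ∑ y ∈ E, ∑ e : ↥Λ → Fin 3, ∑ q ∈ QQ, _ :=
          Finset.sum_congr rfl fun y _ => Finset.sum_comm
      _ = _ := Finset.sum_comm
      _ = _ := by
          refine Finset.sum_congr rfl fun e _ => ?_
          rw [Finset.sum_comm]
          exact Finset.sum_congr rfl fun q _ => Finset.sum_congr rfl fun y _ => by ring
  have hcoef : ∀ e : ↥Λ → Fin 3, ‖∏ i, ![1, c i / 8, conj (c i) / 8] (e i)‖ ≤ 1 := by
    intro e
    rw [norm_prod]
    refine Finset.prod_le_one (fun i _ => norm_nonneg _) fun i _ => ?_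
    have := hc i
    generalize e i = j
    fin_cases j <;> simp <;> linarith
  have hcsE : ∀ ψ : AddChar G ℂ, ‖cs E ψ‖ ≤ E.card := fun ψ => by
    refine (norm_sum_le _ _).trans ?_; simp [AddChar.norm_apply]
  have h4 : ∑ y ∈ E, ∑ q ∈ QQ, P (y + ∑ i, q i) ≤ 2 * E.card * (Q.card : ℝ) ^ m := by
    refine (le_abs_self _).trans ?_
    rw [← Real.norm_eq_abs, ← Complex.norm_real, h2]
    refine (norm_sum_le _ _).trans ?_
    have hterm : ∀ e : ↥Λ → Fin 3,
        ‖(∏ i, ![1, c i / 8, conj (c i) / 8] (e i)) * cs E (combo Λ e) * cs Q (combo Λ e) ^ m‖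
          ≤ E.card * (if e = 0 then (Q.card : ℝ) ^ m else ((Q.card : ℝ) / 2) ^ m) := by
      intro e
      rw [norm_mul, norm_mul, norm_pow]
      refine le_trans (mul_le_mul_of_nonneg_right
        (mul_le_mul (hcoef e) (hcsE _) (norm_nonneg _) zero_le_one) (by positivity)) ?_
      rw [one_mul]
      refine mul_le_mul_of_nonneg_left ?_ (by positivity)
      split_ifs with he
      · refine pow_le_pow_left₀ (norm_nonneg _) ((norm_sum_le _ _).trans ?_) _
        simp [AddChar.norm_apply]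
      · exact pow_le_pow_left₀ (norm_nonneg _) (by linarith [hd e he]) _
    refine (Finset.sum_le_sum fun e _ => hterm e).trans ?_
    have hite : ∀ e : ↥Λ → Fin 3, (if e = 0 then (Q.card : ℝ) ^ m else ((Q.card : ℝ) / 2) ^ m)
        ≤ (if e = 0 then (Q.card : ℝ) ^ m else 0) + ((Q.card : ℝ) / 2) ^ m := by
      intro e
      have : (0 : ℝ) ≤ ((Q.card : ℝ) / 2) ^ m := by positivity
      split_ifs <;> linarith
    rw [← Finset.mul_sum]
    refine (mul_le_mul_of_nonneg_left (Finset.sum_le_sum fun e _ => hite e) (by positivity)).trans ?_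
    rw [Finset.sum_add_distrib, Finset.sum_ite_eq', if_pos (Finset.mem_univ _), Finset.sum_const,
      nsmul_eq_mul, Finset.card_univ, Fintype.card_fun, Fintype.card_fin, Fintype.card_coe]
    have h5 : ((3 ^ Λ.card : ℕ) : ℝ) * ((Q.card : ℝ) / 2) ^ m ≤ (Q.card : ℝ) ^ m := by
      rw [div_pow, mul_div_assoc', div_le_iff₀ (by positivity), mul_comm]
      refine mul_le_mul_of_nonneg_left ?_ (by positivity)
      rw [hm, pow_mul]
      push_cast
      exact pow_le_pow_left₀ (by norm_num) (by norm_num) _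
    have : (0 : ℝ) ≤ E.card := by positivity
    nlinarith
  have hQm : (0 : ℝ) < (Q.card : ℝ) ^ m := by positivity
  refine le_of_mul_le_mul_left ?_ hQm
  linarith [h1.trans h4]

/-- A dissociated subset of the large spectrum is small. -/
lemma dissoc_bound (Q E Ein T : Finset G) (Λ : Finset (AddChar G ℂ)) (hQ : Q.Nonempty)
    (hT : T.Nonempty) (hTE : T ⊆ Ein)
    (hE : ∀ x ∈ Ein, ∀ q : Fin (2 * Λ.card) → G, (∀ i, q i ∈ Q) → x - ∑ i, q i ∈ E)
    (hd : Dissoc Q Λ)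
    (hspec : ∀ ψ ∈ Λ, (T.card : ℝ) ^ 2 / 2 ≤ Complex.normSq (cs T ψ)) {l : ℕ}
    (hl : (E.card : ℝ) ≤ 2 ^ l * T.card) : Λ.card ≤ 10 * (l + 1) := by
  have hTc : (0 : ℝ) < T.card := by exact_mod_cast Finset.card_pos.2 hT
  set c : ↥Λ → ℂ := fun i => conj (cs T i) / (‖cs T i‖ : ℂ) with hc
  have hnT : ∀ i : ↥Λ, (0.7 : ℝ) * T.card ≤ ‖cs T i‖ := by
    intro i
    have h := hspec i i.2
    rw [Complex.normSq_eq_norm_sq] at h
    nlinarith [norm_nonneg (cs T (i : AddChar G ℂ))]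
  have hcn : ∀ i, ‖c i‖ ≤ 1 := fun i => by
    simp only [hc, norm_div, Complex.norm_conj, Complex.norm_real, Real.norm_eq_abs,
      abs_of_nonneg (norm_nonneg _)]
    exact div_self_le_one _
  have hrot : ∀ i : ↥Λ, ∑ x ∈ T, rot (c i) (i : AddChar G ℂ) x = ‖cs T i‖ := by
    intro i
    have hn : ‖cs T (i : AddChar G ℂ)‖ ≠ 0 := (lt_of_lt_of_le (by positivity) (hnT i)).ne'
    simp only [rot]
    rw [← Complex.re_sum, ← Finset.mul_sum]
    change (c i * cs T i).re = _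
    simp only [hc]
    rw [div_mul_eq_mul_div, ← Complex.normSq_eq_conj_mul_self, ← Complex.ofReal_div,
      Complex.ofReal_re, Complex.normSq_eq_norm_sq]
    field_simp
  have hexp : ∀ x, Real.exp (∑ i : ↥Λ, rot (c i) (i : AddChar G ℂ) x / 4)
      ≤ Real.exp ((Λ.card : ℝ) / 12) * ∏ i : ↥Λ, (1 + rot (c i) (i : AddChar G ℂ) x / 4) := by
    intro x
    have e : Real.exp ((Λ.card : ℝ) / 12) = ∏ _i : ↥Λ, Real.exp (1 / 12) := by
      rw [← Real.exp_sum]; congr 1; simp; ring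
    rw [Real.exp_sum, e, ← Finset.prod_mul_distrib]
    refine Finset.prod_le_prod (fun i _ => (Real.exp_pos _).le) fun i _ => ?_
    have hy := abs_le.1 (abs_rot_le (hcn i) (i : AddChar G ℂ) x)
    set y := rot (c i) i x / 4 with hyd
    have hy1 : |y| ≤ 1 / 4 := abs_le.2 ⟨by rw [hyd]; linarith, by rw [hyd]; linarith⟩
    have hy' := abs_le.1 hy1
    have h6 := exp_quad_aux (hy1.trans (by norm_num))
    have h7 : 1 + 1 / 12 ≤ Real.exp (1 / 12) := by linarith [Real.add_one_le_exp (1 / 12 : ℝ)]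
    have h8 : (1 + 1 / 12) * (1 + y) ≤ Real.exp (1 / 12) * (1 + y) :=
      mul_le_mul_of_nonneg_right h7 (by linarith)
    nlinarith
  have hsum := riesz_sum_le Q E Ein Λ rfl hQ hE hd c hcn
  set μ := (∑ x ∈ T, ∑ i : ↥Λ, rot (c i) (i : AddChar G ℂ) x / 4) / T.card with hμ
  have hμlow : (0.175 : ℝ) * Λ.card ≤ μ := by
    rw [hμ, le_div_iff₀ hTc, Finset.sum_comm]
    calc (0.175 : ℝ) * Λ.card * T.card = ∑ _i : ↥Λ, (0.7 * T.card / 4 : ℝ) := by simp; ring
      _ ≤ _ := Finset.sum_le_sum fun i _ => by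
          rw [← Finset.sum_div, hrot i]; linarith [hnT i]
  have hjensen : (T.card : ℝ) * Real.exp μ ≤ ∑ x ∈ T, Real.exp (∑ i : ↥Λ, rot (c i) (i : AddChar G ℂ) x / 4) := by
    have h9 : ∀ x ∈ T, Real.exp μ * (1 + ((∑ i : ↥Λ, rot (c i) (i : AddChar G ℂ) x / 4) - μ))
        ≤ Real.exp (∑ i : ↥Λ, rot (c i) (i : AddChar G ℂ) x / 4) := by
      intro x _
      calc _ ≤ Real.exp μ * Real.exp ((∑ i : ↥Λ, rot (c i) (i : AddChar G ℂ) x / 4) - μ) := by
            gcongr; linarith [Real.add_one_le_exp ((∑ i : ↥Λ, rot (c i) (i : AddChar G ℂ) x / 4) - μ)]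
        _ = _ := by rw [← Real.exp_add]; ring_nf
    refine le_trans (le_of_eq ?_) (Finset.sum_le_sum h9)
    rw [← Finset.mul_sum, Finset.sum_add_distrib, Finset.sum_sub_distrib]
    simp only [Finset.sum_const, nsmul_eq_mul, mul_one]
    rw [hμ]
    field_simp
    ring
  have hP0 : ∀ x ∈ Ein, 0 ≤ ∏ i : ↥Λ, (1 + rot (c i) (i : AddChar G ℂ) x / 4) := fun x _ =>
    Finset.prod_nonneg fun i _ => by linarith [abs_le.1 (abs_rot_le (hcn i) (i : AddChar G ℂ) x)]
  have hall : (T.card : ℝ) * Real.exp μ ≤ Real.exp ((Λ.card : ℝ) / 12) * (2 * E.card) := by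
    refine hjensen.trans ((Finset.sum_le_sum fun x _ => hexp x).trans ?_)
    rw [← Finset.mul_sum]
    refine mul_le_mul_of_nonneg_left ?_ (Real.exp_pos _).le
    exact (Finset.sum_le_sum_of_subset_of_nonneg hTE fun x hx _ => hP0 x hx).trans hsum
  have h10 : Real.exp μ ≤ Real.exp ((Λ.card : ℝ) / 12) * 2 ^ (l + 1) := by
    refine le_of_mul_le_mul_left ?_ hTc
    refine hall.trans ?_
    rw [pow_succ]
    nlinarith [Real.exp_pos ((Λ.card : ℝ) / 12), hl]
  have h11 : (0.175 : ℝ) * Λ.card - (Λ.card : ℝ) / 12 ≤ (l + 1 : ℕ) * Real.log 2 := by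
    rw [← Real.log_pow, ← Real.exp_le_exp, Real.exp_log (by positivity), Real.exp_sub,
      div_le_iff₀ (Real.exp_pos _), mul_comm ((2 : ℝ) ^ (l + 1))]
    exact (Real.exp_le_exp.2 hμlow).trans h10
  have hlog : Real.log 2 < 0.7 := lt_trans Real.log_two_lt_d9 (by norm_num)
  have : (Λ.card : ℝ) ≤ (10 * (l + 1) : ℕ) := by
    push_cast at h11 ⊢
    nlinarith
  exact_mod_cast this

end Vale.Agent.P057.ThreeAP
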