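import Vale.Agent.P057.ThreeAP.Iteration

/-!
Transfer to intervals of integers.
-/

namespace Vale.Agent.P057.ThreeAP

open Finset

/-- Division by two modulo `2 * N + 1`. -/
def halfMod (N : ℕ) : ZMod (2 * N + 1) ≃+ ZMod (2 * N + 1) where
  toFun x := ((N + 1 : ℕ) : ZMod (2 * N + 1)) * x
  invFun x := x + x
  left_inv x := by
    have h : ((2 * N + 1 : ℕ) : ZMod (2 * N + 1)) = 0 := ZMod.natCast_self _
    push_cast at h ⊢
    linear_combination x * h
  right_inv x := by
    have h : ((2 * N + 1 : ℕ) : ZMod (2 * N + 1)) = 0 := ZMod.natCast_self _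
    push_cast at h ⊢
    linear_combination x * h
  map_add' x y := by ring

lemma interval_bound {N L : ℕ} (hL : 1 ≤ L)
    (hdense : (2 * N + 1 : ℝ) ≤ 2 ^ L * (rothNumberNat N : ℝ)) :
    (2 * N + 1 : ℝ) ≤ 2 ^ finalExp L := by
  obtain ⟨t, ht, htc, htfree⟩ := rothNumberNat_spec N
  have hinj : Set.InjOn (fun x : ℕ => (x : ZMod (2 * N + 1))) t := by
    intro a ha b hb h
    have ha' := Finset.mem_range.1 (ht ha)
    have hb' := Finset.mem_range.1 (ht hb)
    have := (ZMod.natCast_eq_natCast_iff' a b (2 * N + 1)).1 h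
    rwa [Nat.mod_eq_of_lt (by omega), Nat.mod_eq_of_lt (by omega)] at this
  set A := t.image fun x : ℕ => (x : ZMod (2 * N + 1)) with hA
  have hAc : A.card = rothNumberNat N := by rw [hA, Finset.card_image_of_injOn hinj, htc]
  have hfree : ∀ x ∈ A, ∀ y ∈ A, ∀ z ∈ A, x + z = y + y → x = y := by
    intro x hx y hy z hz h
    obtain ⟨a, ha, rfl⟩ := Finset.mem_image.1 hx
    obtain ⟨b, hb, rfl⟩ := Finset.mem_image.1 hy
    obtain ⟨c, hc, rfl⟩ := Finset.mem_image.1 hz
    have ha' := Finset.mem_range.1 (ht ha)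
    have hb' := Finset.mem_range.1 (ht hb)
    have hc' := Finset.mem_range.1 (ht hc)
    have h2 : ((a + c : ℕ) : ZMod (2 * N + 1)) = ((b + b : ℕ) : ZMod (2 * N + 1)) := by
      push_cast; exact h
    rw [ZMod.natCast_eq_natCast_iff', Nat.mod_eq_of_lt (by omega), Nat.mod_eq_of_lt (by omega)]
      at h2
    rw [htfree (Finset.mem_coe.2 ha) (Finset.mem_coe.2 hb) (Finset.mem_coe.2 hc) h2]
  have h := group_bound (halfMod N) (fun x => by
      simp only [halfMod, AddEquiv.coe_mk, Equiv.coe_fn_mk]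
      have h : ((2 * N + 1 : ℕ) : ZMod (2 * N + 1)) = 0 := ZMod.natCast_self _
      push_cast at h ⊢
      linear_combination x * h) A hfree hL
    (by rw [ZMod.card, hAc]; push_cast; exact hdense)
  rw [ZMod.card] at h
  push_cast at h
  exact h

/-- The bound for progression-free subsets of an interval. -/
theorem roth_bound : ∃ c C : ℝ, 0 < c ∧ 0 < C ∧ ∀ N : ℕ, 16 ≤ N →
    (rothNumberNat N : ℝ) ≤
      C * N * Real.exp (-(c * (Real.log N / Real.log (Real.log N)) ^ ((1 : ℝ) / 6))) := by
  set K : ℝ := 729 * 8 * 10 ^ 42 with hK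
  have hKpos : 0 < K := by rw [hK]; norm_num
  refine ⟨(1 / K) ^ ((1 : ℝ) / 6), 3, by positivity, by norm_num, ?_⟩
  intro N hN
  rcases Nat.eq_zero_or_pos (rothNumberNat N) with h0 | hrpos
  · rw [h0, Nat.cast_zero]; positivity
  set r : ℝ := (rothNumberNat N : ℝ) with hr
  have hr1 : 1 ≤ r := by rw [hr]; exact_mod_cast hrpos
  have hrN : r ≤ N := by rw [hr]; exact_mod_cast rothNumberNat_le N
  have hN16 : (16 : ℝ) ≤ N := by exact_mod_cast hN
  set T := Real.log (3 * N / r) with hT
  have hlog16 : Real.exp 1 < Real.log N := by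
    have h1 : Real.log 16 = 4 * Real.log 2 := by
      rw [show (16 : ℝ) = 2 ^ 4 by norm_num, Real.log_pow]; norm_num
    have h2 := Real.log_le_log (by norm_num) hN16
    linarith [Real.exp_one_lt_d9, Real.log_two_gt_d9]
  have he1 : (2 : ℝ) ≤ Real.exp 1 := by linarith [Real.add_one_le_exp (1 : ℝ)]
  have hlogN1 : 1 ≤ Real.log N := by linarith
  have hll : 1 ≤ Real.log (Real.log N) := by
    rw [Real.le_log_iff_exp_le (by linarith)]; exact hlog16.le
  have hT1 : 1 ≤ T := by
    rw [hT, Real.le_log_iff_exp_le (by positivity), le_div_iff₀ (by linarith)]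
    nlinarith [Real.exp_one_lt_d9]
  set X := Real.log N / Real.log (Real.log N) with hX
  have hX0 : 0 ≤ X := div_nonneg (by linarith) (by linarith)
  have hXlog : X ≤ Real.log N := div_le_self (by linarith) hll
  have key : X ≤ K * T ^ 6 := by
    rcases le_or_gt (Real.log N) T with hcase | hcase
    · have hT6 : T ≤ T ^ 6 := le_self_pow₀ hT1 (by norm_num)
      nlinarith
    set L := ⌈T / Real.log 2⌉₊ with hL
    have hlog2 := Real.log_two_gt_d9
    have hlog2' := Real.log_two_lt_d9
    have hT2 : 0 < T / Real.log 2 := by positivity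
    have hL1 : 1 ≤ L := Nat.ceil_pos.2 hT2
    have hLT : (L : ℝ) ≤ 3 * T := by
      have h1 := (Nat.ceil_lt_add_one hT2.le).le
      have h2 : T / Real.log 2 ≤ 2 * T := by
        rw [div_le_iff₀ (by linarith)]; nlinarith
      rw [← hL] at h1
      linarith
    have h2L : 3 * (N : ℝ) / r ≤ 2 ^ L := by
      have h1 : T ≤ L * Real.log 2 := by
        have := Nat.le_ceil (T / Real.log 2)
        rw [← hL] at this
        exact (div_le_iff₀ (by linarith)).1 this
      have h2 := Real.exp_le_exp.2 h1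
      rwa [hT, Real.exp_log (by positivity), Real.exp_nat_mul, Real.exp_log (by norm_num)] at h2
    have hb := interval_bound (N := N) hL1 (by
      rw [← hr]
      rw [div_le_iff₀ (by linarith)] at h2L
      linarith)
    have hlogN : Real.log N ≤ (finalExp L : ℝ) := by
      have h1 := Real.log_le_log (by positivity) (le_trans (show (N : ℝ) ≤ 2 * N + 1 by linarith) hb)
      rw [Real.log_pow] at h1
      have : (finalExp L : ℝ) * Real.log 2 ≤ finalExp L :=
        mul_le_of_le_one_right (by positivity) (by linarith)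
      linarith
    have hl : ((Nat.log 2 L + 1 : ℕ) : ℝ) ≤ 8 * Real.log (Real.log N) := by
      have h1 : ((2 ^ Nat.log 2 L : ℕ) : ℝ) ≤ L := Nat.cast_le.2 (Nat.pow_log_le_self 2 (by omega))
      have h2 := Real.log_le_log (by positivity) h1
      push_cast at h2
      rw [Real.log_pow] at h2
      have h3 : Real.log L ≤ Real.log (3 * Real.log N) :=
        Real.log_le_log (Nat.cast_pos.2 hL1) (by linarith)
      rw [Real.log_mul (by norm_num) (by linarith)] at h3
      have h4 : Real.log 3 ≤ 2 := by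
        rw [Real.log_le_iff_le_exp (by norm_num)]; linarith [Real.add_one_le_exp (2 : ℝ)]
      push_cast
      nlinarith [show (0 : ℝ) ≤ (Nat.log 2 L : ℝ) by positivity]
    have hfe : (finalExp L : ℝ) ≤ 10 ^ 42 * ((L : ℝ) ^ 6 * ((Nat.log 2 L + 1 : ℕ) : ℝ)) := by
      exact_mod_cast finalExp_le hL1
    have hL6 : (L : ℝ) ^ 6 ≤ 729 * T ^ 6 := by
      refine (pow_le_pow_left₀ (by positivity) hLT 6).trans (le_of_eq ?_)
      rw [mul_pow]; norm_num
    rw [hX, div_le_iff₀ (by linarith)]
    refine hlogN.trans (hfe.trans ?_)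
    refine (mul_le_mul_of_nonneg_left (mul_le_mul hL6 hl (by positivity) (by positivity))
      (by positivity)).trans (le_of_eq ?_)
    rw [hK]; ring
  have hTc : (1 / K) ^ ((1 : ℝ) / 6) * X ^ ((1 : ℝ) / 6) ≤ T := by
    rw [← Real.mul_rpow (by positivity) hX0]
    have h1 : 1 / K * X ≤ T ^ 6 := by
      rw [one_div_mul_eq_div, div_le_iff₀ hKpos]; linarith
    refine (Real.rpow_le_rpow (by positivity) h1 (by norm_num)).trans (le_of_eq ?_)
    rw [show (1 : ℝ) / 6 = ((6 : ℕ) : ℝ)⁻¹ by norm_num]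
    exact Real.pow_rpow_inv_natCast (by linarith) (by norm_num)
  calc r = 3 * N * Real.exp (-T) := by
        rw [Real.exp_neg, hT, Real.exp_log (by positivity)]; field_simp
    _ ≤ _ := by gcongr

end Vale.Agent.P057.ThreeAP
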