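import Vale.Agent.P057.ThreeAP.Step

/-!
Iterating the increment: a bound on the size of a group containing a dense progression-free set.
-/

namespace Vale.Agent.P057.ThreeAP

open Finset

set_option linter.unusedSectionVars false

variable {G : Type*} [AddCommGroup G] [Fintype G] [DecidableEq G]

lemma radiusLoss_mono {d d' L : ℕ} (h : d ≤ d') : radiusLoss d L ≤ radiusLoss d' L := by
  have : (d : ℝ) ≤ d' := by exact_mod_cast h
  unfold radiusLoss
  gcongr

lemma one_le_radiusLoss {d L : ℕ} (hd : 1 ≤ d) (hL : 1 ≤ L) : 1 ≤ radiusLoss d L := by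
  have h1 : (1 : ℝ) ≤ d := by exact_mod_cast hd
  have h2 : (1 : ℝ) ≤ rankGain L := by exact_mod_cast rankGain_pos hL
  have h3 : (1 : ℝ) ≤ (d : ℝ) ^ 5 := one_le_pow₀ h1
  unfold radiusLoss
  have h4 : (1 : ℝ) ≤ (d : ℝ) + rankGain L := by linarith
  exact one_le_mul_of_one_le_of_one_le
    (one_le_mul_of_one_le_of_one_le (one_le_mul_of_one_le_of_one_le (by norm_num) h3) h2) h4

lemma iterate (half : G ≃+ G) (hhalf : ∀ x, half x + half x = x) (A : Finset G)
    (hfree : ∀ x ∈ A, ∀ y ∈ A, ∀ z ∈ A, x + z = y + y → x = y) {L : ℕ} (hL : 1 ≤ L) (D : ℕ) :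
    ∀ (j : ℕ) (Γ : Finset (AddChar G ℂ)) (ρ μ α : ℝ) (a : G), Stable Γ ρ μ → μ ≤ 1 →
      Γ.card + 1 + j * rankGain L ≤ D → 1 ≤ 2 ^ L * α →
      α * (bohr Γ ρ).card ≤ hits A a (bohr Γ ρ) → 1 < 1.002 ^ j * α →
      ∃ (Γ' : Finset (AddChar G ℂ)) (r : ℝ), Γ'.card + 1 ≤ D ∧
        μ / (4 * radiusLoss D L ^ j) ≤ r ∧ ((bohr Γ' r).card : ℝ) ≤ 20 * 4 ^ L := by
  intro j
  induction j with
  | zero =>
    intro Γ ρ μ α a hs _ _ _ hdense hgt
    have hpos : (0 : ℝ) < (bohr Γ ρ).card := Nat.cast_pos.2 (bohr_card_pos (by linarith [hs.pos, hs.le]))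
    have := le_of_mul_le_mul_right ((hdense.trans (hits_le _ _ _)).trans (one_mul _).ge) hpos
    simp at hgt
    linarith
  | succ j ih =>
    intro Γ ρ μ α a hs hμ hD hα hdense hgt
    have hd : Γ.card + 1 ≤ D := by
      have : 0 ≤ (j + 1) * rankGain L := Nat.zero_le _
      omega
    have hP : 1 ≤ radiusLoss D L := one_le_radiusLoss (by omega) hL
    rcases step half hhalf A hfree hL hd hs hμ hα hdense with ⟨r, hr, hsmall⟩ | hinc
    · refine ⟨Γ, r, hd, le_trans ?_ hr, ?_⟩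
      · exact div_le_div_of_nonneg_left hs.pos.le (by norm_num)
          (le_mul_of_one_le_right (by norm_num) (one_le_pow₀ hP))
      · have h4 : (4 : ℝ) ^ L = (2 ^ L) ^ 2 := by rw [← pow_mul, mul_comm, pow_mul]; norm_num
        rw [h4]
        have hα2 : 1 ≤ (2 : ℝ) ^ L * α * (2 ^ L * α) := one_le_mul_of_one_le_of_one_le hα hα
        have hc : (0 : ℝ) ≤ (bohr Γ r).card := by positivity
        have h5 := mul_le_mul_of_nonneg_left hsmall (sq_nonneg ((2 : ℝ) ^ L))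
        have h6 := mul_le_mul_of_nonneg_right hα2 hc
        nlinarith
    · obtain ⟨Γ', ρ', μ', a', hc, hs', hμ', hloss, hdense'⟩ := hinc
      have hD' : Γ'.card + 1 + j * rankGain L ≤ D := by
        rw [add_mul, one_mul] at hD; omega
      have hgt' : 1 < 1.002 ^ j * (1.002 * α) := by rw [← mul_assoc, ← pow_succ]; exact hgt
      obtain ⟨Γ'', r, h1, h2, h3⟩ := ih Γ' ρ' μ' (1.002 * α) a' hs' hμ' hD'
        (by nlinarith) hdense' hgt'
      refine ⟨Γ'', r, h1, le_trans ?_ h2, h3⟩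
      rw [pow_succ', mul_left_comm, ← div_div]
      exact div_le_div_of_nonneg_right hloss (by positivity)

/-- The exponent in the final bound. -/
def finalExp (L : ℕ) : ℕ :=
  6 * (1 + (500 * L + 1) * rankGain L) * (3 + (500 * L + 1) * (1000 + 40 * (Nat.log 2 L + 1)))
    + 2 * L + 5

lemma radiusLoss_le (L : ℕ) (hL : 1 ≤ L) :
    radiusLoss (1 + (500 * L + 1) * rankGain L) L ≤ 2 ^ (1000 + 40 * (Nat.log 2 L + 1)) := by
  obtain ⟨l, hl⟩ : ∃ l, l = Nat.log 2 L + 1 := ⟨_, rfl⟩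
  have hLl : L ≤ 2 ^ l := by rw [hl]; exact (Nat.lt_pow_succ_log_self (by norm_num) L).le
  obtain ⟨D, hD⟩ : ∃ D, D = 1 + (500 * L + 1) * rankGain L := ⟨_, rfl⟩
  rw [← hD, ← hl]
  have hN : rankGain L ≤ 2 ^ (104 + 4 * l) := by
    rw [rankGain, pow_add, mul_comm 4 l, pow_mul 2 l]
    exact Nat.mul_le_mul (by norm_num) (Nat.pow_le_pow_left hLl 4)
  have hD2 : D ≤ 2 ^ (120 + 5 * l) := by
    have h1 : D ≤ 1024 * L * rankGain L := by
      have := rankGain_pos hL
      rw [hD]; nlinarith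
    refine h1.trans ?_
    have h2 := Nat.mul_le_mul (Nat.mul_le_mul (le_refl 1024) hLl) hN
    refine h2.trans ?_
    rw [show 1024 = 2 ^ 10 by norm_num, ← pow_add, ← pow_add]
    exact Nat.pow_le_pow_right (by norm_num) (by omega)
  have hN' : (rankGain L : ℝ) ≤ 2 ^ (104 + 4 * l) := by exact_mod_cast hN
  have hD' : (D : ℝ) ≤ 2 ^ (120 + 5 * l) := by exact_mod_cast hD2
  have hsum : (D : ℝ) + rankGain L ≤ 2 ^ (121 + 5 * l) := by
    have : (2 : ℝ) ^ (104 + 4 * l) ≤ 2 ^ (120 + 5 * l) := pow_le_pow_right₀ (by norm_num) (by omega)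
    rw [show 121 + 5 * l = (120 + 5 * l) + 1 by ring, pow_succ]
    linarith
  have hconst : (128 : ℝ) * 96000 ^ 6 ≤ 2 ^ 120 := by norm_num
  unfold radiusLoss
  refine le_trans (mul_le_mul (mul_le_mul (mul_le_mul hconst
    (pow_le_pow_left₀ (by positivity) hD' 5) (by positivity) (by positivity)) hN' (by positivity)
      (by positivity)) hsum (by positivity) (by positivity)) ?_
  rw [← pow_mul, ← pow_add, ← pow_add, ← pow_add]
  exact pow_le_pow_right₀ (by norm_num) (by omega)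

/-- A dense progression-free set forces the group to be small. -/
theorem group_bound (half : G ≃+ G) (hhalf : ∀ x, half x + half x = x) (A : Finset G)
    (hfree : ∀ x ∈ A, ∀ y ∈ A, ∀ z ∈ A, x + z = y + y → x = y) {L : ℕ} (hL : 1 ≤ L)
    (hA : (Fintype.card G : ℝ) ≤ 2 ^ L * A.card) :
    (Fintype.card G : ℝ) ≤ 2 ^ finalExp L := by
  have hgpos : (0 : ℝ) < Fintype.card G := Nat.cast_pos.2 Fintype.card_pos
  set J := 500 * L + 1 with hJ
  set D := 1 + J * rankGain L with hD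
  set b := 1000 + 40 * (Nat.log 2 L + 1) with hb
  set α := (A.card : ℝ) / Fintype.card G with hα
  have hα1 : 1 ≤ 2 ^ L * α := by rw [hα, mul_div_assoc', le_div_iff₀ hgpos, one_mul]; exact hA
  have hbohr : ∀ r : ℝ, bohr (∅ : Finset (AddChar G ℂ)) r = Finset.univ := fun r => by simp [bohr]
  have hs : Stable (∅ : Finset (AddChar G ℂ)) 1 1 := by
    refine ⟨one_pos, le_rfl, ?_⟩
    rw [hbohr, hbohr]
    linarith
  have hgt : 1 < 1.002 ^ J * α := by
    have h2 : (2 : ℝ) ^ L ≤ 1.002 ^ (500 * L) := by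
      rw [pow_mul _ 500]
      refine pow_le_pow_left₀ (by norm_num) ?_ L
      have := le_one_add_inv_pow (n := 500) (by norm_num)
      norm_num at this ⊢
      exact this
    rw [hJ, pow_succ]
    have hαpos : 0 < α := by
      by_contra h
      push Not at h
      nlinarith [pow_pos (show (0 : ℝ) < 2 by norm_num) L]
    have := mul_le_mul_of_nonneg_right h2 hαpos.le
    nlinarith
  obtain ⟨Γ, r, hΓ, hr, hcard⟩ := iterate half hhalf A hfree hL D J ∅ 1 1 α 0 hs le_rfl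
    (by simp [hD]) hα1 (by rw [hbohr, hits, hα]; simp) hgt
  have hP0 : 0 < radiusLoss D L := lt_of_lt_of_le one_pos (one_le_radiusLoss (by omega) hL)
  have hrad : (2 : ℝ) / 2 ^ (3 + b * J) ≤ r := by
    refine le_trans ?_ hr
    rw [div_le_div_iff₀ (by positivity) (by positivity), one_mul, pow_add (2 : ℝ) 3, pow_mul (2 : ℝ) b J]
    have h := pow_le_pow_left₀ hP0.le (radiusLoss_le L hL) J
    linarith
  have h1 := bohr_lower Γ (3 + b * J)
  have h2 : ((bohr Γ (2 / 2 ^ (3 + b * J))).card : ℝ) ≤ 20 * 4 ^ L :=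
    le_trans (Nat.cast_le.2 (Finset.card_le_card (bohr_mono hrad))) hcard
  have h3 : (36 : ℝ) ^ (Γ.card * (3 + b * J)) ≤ 2 ^ (6 * D * (3 + J * b)) := by
    calc (36 : ℝ) ^ (Γ.card * (3 + b * J)) ≤ ((2 : ℝ) ^ 6) ^ (Γ.card * (3 + b * J)) :=
          pow_le_pow_left₀ (by norm_num) (by norm_num) _
      _ ≤ _ := by
          rw [← pow_mul, mul_comm b J]
          refine pow_le_pow_right₀ (by norm_num) ?_
          rw [mul_assoc 6 D]
          exact Nat.mul_le_mul_left _ (Nat.mul_le_mul_right _ (by omega))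
  have h4 : (20 : ℝ) * 4 ^ L ≤ 2 ^ (2 * L + 5) := by
    rw [pow_add, pow_mul]; norm_num
    have : (0 : ℝ) ≤ 4 ^ L := by positivity
    linarith
  refine h1.trans ((mul_le_mul h3 (h2.trans h4) (by positivity) (by positivity)).trans (le_of_eq ?_))
  rw [← pow_add, finalExp, ← hJ, ← hD, ← hb, add_assoc (6 * D * (3 + J * b))]

lemma finalExp_le {L : ℕ} (hL : 1 ≤ L) :
    finalExp L ≤ 10 ^ 42 * (L ^ 6 * (Nat.log 2 L + 1)) := by
  obtain ⟨l, hl⟩ : ∃ l, l = Nat.log 2 L + 1 := ⟨_, rfl⟩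
  have hl1 : 1 ≤ l := by omega
  unfold finalExp
  rw [← hl]
  have hN := rankGain_pos hL
  have h1 : 1 + (500 * L + 1) * rankGain L ≤ 502 * L * rankGain L := by nlinarith
  have hLl : 1 ≤ L * l := Nat.mul_le_mul hL hl1
  have h2 : 3 + (500 * L + 1) * (1000 + 40 * l) ≤ 600000 * (L * l) := by
    have ha : L ≤ L * l := Nat.le_mul_of_pos_right L hl1
    have hb : l ≤ L * l := Nat.le_mul_of_pos_left l hL
    nlinarith
  have h3 := Nat.mul_le_mul (Nat.mul_le_mul (le_refl 6) h1) h2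
  have h4 : 6 * (502 * L * rankGain L) * (600000 * (L * l))
      = 6 * 502 * 600000 * 10 ^ 31 * (L ^ 6 * l) := by unfold rankGain; ring
  rw [h4] at h3
  have h5 : L ≤ L ^ 6 * l :=
    le_trans (Nat.le_self_pow (by norm_num) L) (Nat.le_mul_of_pos_right _ hl1)
  have h6 : 1 ≤ L ^ 6 * l := le_trans hL h5
  omega

end Vale.Agent.P057.ThreeAP
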