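import Vale.Agent.P057.ThreeAP.Moments

/-!
Absence of progressions gives a large moment of the autocorrelation on small scales.
-/

namespace Vale.Agent.P057.ThreeAP

open Finset

set_option linter.unusedSectionVars false

variable {G : Type*} [AddCommGroup G] [Fintype G] [DecidableEq G]

lemma sum_fInd_cross (A B : Finset G) (g : G → G) :
    ∑ u, fInd A u * fInd B (g u) = ((A.filter fun u => g u ∈ B).card : ℝ) := by
  rw [sum_fInd_mul, ← Finset.sum_boole]
  exact Finset.sum_congr rfl fun u _ => rfl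

lemma apfree_sconv_le {A1 : Finset G} {y : G}
    (h : ∀ x ∈ A1, ∀ z ∈ A1, x + z = y + y → x = y) : sconv (fInd A1) (y + y) ≤ 1 := by
  unfold sconv
  rw [sum_fInd_cross]
  have hsub : (A1.filter fun u => y + y - u ∈ A1) ⊆ {y} := by
    intro u hu
    rw [Finset.mem_filter] at hu
    exact Finset.mem_singleton.2 (h u hu.1 _ hu.2 (by abel))
  have := Finset.card_le_card hsub
  rw [Finset.card_singleton] at this
  exact_mod_cast this

/-- No progressions and a flat boundary give a large moment at small scale. -/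
lemma large_moment (A1 A2 B Z E E' D : Finset G) (hA : A1 ⊆ B) {nrm e : ℝ} (he0 : 0 ≤ e)
    (he : e ≤ 1 / 1000) (hnrm : nrm = (A1.card : ℝ) ^ 2 / B.card) (hbig : 4 ≤ nrm)
    (hBneg : ∀ x ∈ B, -x ∈ B) (hZneg : ∀ x ∈ Z, -x ∈ Z)
    (hflat : ∀ x ∈ Z, (1 - e) * A1.card ≤ ((A1.filter fun u => u + x ∈ B).card : ℝ))
    (hinj : Function.Injective fun y : G => y + y)
    (hfree : ∀ x ∈ A1, ∀ y ∈ A2, ∀ z ∈ A1, x + z = y + y → x = y)
    (hA2E : ∀ y ∈ A2, y + y ∈ E) (hEZ : E ⊆ Z) (hDne : D.Nonempty) (hE'ne : E'.Nonempty)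
    (hsub : ∀ x ∈ E, ∀ v ∈ D, ∀ w ∈ D, x - (w - v) ∈ E')
    (hDZ : ∀ v ∈ D, ∀ w ∈ D, w - v ∈ Z)
    {L : ℕ} (hE' : (E'.card : ℝ) ≤ 2 ^ (L + 2) * A2.card) :
    ∃ q, 0 < q ∧ q ≤ 20 * (4 * (L + 2) + 1) ∧
      (D.card : ℝ) ^ 2 * (41 / 40 * nrm) ^ q ≤ momS A1 D q := by
  set n : ℝ := (A1.card : ℝ) with hn
  set β : ℝ := (B.card : ℝ) with hβ
  set α := n / β with hα
  have hn0 : 0 ≤ n := by positivity
  have hβpos : 0 < β := by
    rcases lt_or_eq_of_le (show 0 ≤ β by positivity) with h | h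
    · exact h
    · rw [← h, div_zero] at hnrm; linarith
  have hα0 : 0 ≤ α := by positivity
  have hαn : α * n = nrm := by rw [hnrm, hα]; ring
  have hααβ : α ^ 2 * β = nrm := by rw [hnrm, hα]; field_simp
  have hpos : 0 < nrm := by linarith
  set h : G → ℝ := fun u => fInd A1 u - α * fInd B u with hh
  have hneg : ∀ u x : G, (u - x ∈ B ↔ x - u ∈ B) := fun u x =>
    ⟨fun h => by simpa using hBneg _ h, fun h => by simpa using hBneg _ h⟩
  have hflat' : ∀ x ∈ Z, (1 - e) * n ≤ ((A1.filter fun u => u - x ∈ B).card : ℝ) := by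
    intro x hx
    simpa [sub_eq_add_neg] using hflat _ (hZneg x hx)
  have hac : ∀ x ∈ Z, acorr h x + (1 - 2 * e) * nrm ≤ acorr (fInd A1) x := by
    intro x hx
    have e1 : acorr h x = acorr (fInd A1) x - α * ((A1.filter fun u => u + x ∈ B).card : ℝ)
        - α * ((A1.filter fun u => u - x ∈ B).card : ℝ) + α ^ 2 * acorr (fInd B) x := by
      have s1 := sum_fInd_cross A1 B (fun u => u + x)
      have s2 : ∑ u, fInd B u * fInd A1 (u + x) = ((A1.filter fun u => u - x ∈ B).card : ℝ) := by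
        rw [← sum_fInd_cross A1 B (fun u => u - x)]
        refine Fintype.sum_equiv (Equiv.addRight x) _ _ fun u => ?_
        simp [mul_comm]
      rw [← s1, ← s2]
      simp only [acorr, hh, Finset.mul_sum, ← Finset.sum_sub_distrib, ← Finset.sum_add_distrib]
      exact Finset.sum_congr rfl fun u _ => by ring
    have b1 := mul_le_mul_of_nonneg_left (hflat x hx) hα0
    have b2 := mul_le_mul_of_nonneg_left (hflat' x hx) hα0
    have b3 := mul_le_mul_of_nonneg_left (acorr_fInd_le B x) (sq_nonneg α)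
    rw [e1]
    nlinarith
  have hsc : ∀ y ∈ A2, sconv h (y + y) ≤ -(nrm / 2) := by
    intro y hy
    have hx : y + y ∈ Z := hEZ (hA2E y hy)
    set x := y + y with hxdef
    have s1 : ∑ u, fInd A1 u * fInd B (x - u) = ((A1.filter fun u => u - x ∈ B).card : ℝ) := by
      rw [sum_fInd_cross]
      simp_rw [hneg]
    have s2 : ∑ u, fInd B u * fInd A1 (x - u) = ((A1.filter fun u => u - x ∈ B).card : ℝ) := by
      rw [← s1]
      refine Fintype.sum_equiv (Equiv.subLeft x) _ _ fun u => ?_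
      simp [mul_comm]
    have hbb : sconv (fInd B) x ≤ β := by
      simp only [sconv, hβ, ← sum_fInd B]
      exact Finset.sum_le_sum fun u _ =>
        mul_le_of_le_one_right (fInd_nonneg _ _) (fInd_le_one _ _)
    have e1 : sconv h x = sconv (fInd A1) x - α * ((A1.filter fun u => u - x ∈ B).card : ℝ)
        - α * ((A1.filter fun u => u - x ∈ B).card : ℝ) + α ^ 2 * sconv (fInd B) x := by
      nth_rewrite 1 [← s1]
      rw [← s2]
      simp only [sconv, hh, Finset.mul_sum, ← Finset.sum_sub_distrib, ← Finset.sum_add_distrib]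
      exact Finset.sum_congr rfl fun u _ => by ring
    have b1 := mul_le_mul_of_nonneg_left (hflat' x hx) hα0
    have b3 := mul_le_mul_of_nonneg_left hbb (sq_nonneg α)
    have b4 := apfree_sconv_le fun a ha c hc => hfree a ha y hy c hc
    have : e * nrm ≤ 1 / 1000 * nrm := mul_le_mul_of_nonneg_right he hpos.le
    rw [e1]
    nlinarith
  set p := 4 * (L + 2) with hp
  have hpe : Even p := by rw [hp]; exact ⟨2 * (L + 2), by ring⟩
  set C := A2.image fun y => y + y with hC
  have hCE : C ⊆ E := fun c hc => by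
    obtain ⟨y, hy, rfl⟩ := Finset.mem_image.1 hc
    exact hA2E y hy
  obtain ⟨t, ht⟩ := lift_translate (fun x => sconv h x ^ p) (fun x => hpe.pow_nonneg _) C E E' D
    hCE hE'ne hsub
  have hE'pos : (0 : ℝ) < E'.card := by exact_mod_cast Finset.card_pos.2 hE'ne
  have hCsum : (A2.card : ℝ) * (nrm / 2) ^ p ≤ ∑ c ∈ C, sconv h c ^ p := by
    rw [hC, Finset.sum_image hinj.injOn]
    refine le_trans ?_ (Finset.card_nsmul_le_sum A2 _ ((nrm / 2) ^ p) fun y hy => ?_)
    · simp
    · rw [← hpe.pow_abs (sconv h (y + y))]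
      refine pow_le_pow_left₀ (by positivity) ?_ p
      rw [abs_of_nonpos (by linarith [hsc y hy])]
      linarith [hsc y hy]
  have hmom : (D.card : ℝ) ^ 2 * (nrm / 3) ^ p ≤ ∑ v ∈ D, ∑ w ∈ D, acorr h (w - v) ^ p := by
    refine le_trans ?_ (sconv_kernel_le h p D t)
    refine le_of_mul_le_mul_left ?_ hE'pos
    refine le_trans ?_ ht
    refine le_trans ?_ (mul_le_mul_of_nonneg_left hCsum (by positivity))
    have h32 : (2 : ℝ) ^ (L + 2) ≤ (3 / 2) ^ p := by
      rw [hp, pow_mul]
      exact pow_le_pow_left₀ (by norm_num) (by norm_num) _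
    have e3 : (nrm / 2) ^ p = (3 / 2) ^ p * (nrm / 3) ^ p := by
      rw [← mul_pow]; ring_nf
    rw [e3]
    have : (E'.card : ℝ) ≤ A2.card * (3 / 2) ^ p :=
      hE'.trans (by rw [mul_comm]; gcongr)
    nlinarith [mul_le_mul_of_nonneg_right this
      (show (0 : ℝ) ≤ (D.card : ℝ) ^ 2 * (nrm / 3) ^ p by positivity)]
  set P := D ×ˢ D
  set u : G × G → ℝ := fun i => acorr h (i.2 - i.1) / nrm with hu
  have hPc : (P.card : ℝ) = (D.card : ℝ) ^ 2 := by
    rw [Finset.card_product, Nat.cast_mul, pow_two]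
  have hsumu : ∀ k, ∑ i ∈ P, u i ^ k = (∑ v ∈ D, ∑ w ∈ D, acorr h (w - v) ^ k) / nrm ^ k := by
    intro k
    simp only [hu, div_pow, Finset.sum_product, Finset.sum_div, P]
  have hunb := unbalance P u hpe (by omega)
    (by rw [hsumu]; exact div_nonneg (acorr_kernel_nonneg _ _ _) (by positivity))
    (by
      rw [hsumu, hPc, le_div_iff₀ (by positivity), mul_assoc, ← mul_pow]
      refine le_trans (le_of_eq ?_) hmom
      ring_nf)
  refine ⟨20 * (p + 1), by omega, by omega, ?_⟩
  have hx : ∀ i ∈ P, 0 ≤ acorr (fInd A1) (i.2 - i.1) / nrm := fun i _ =>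
    div_nonneg (acorr_fInd_nonneg _ _) hpos.le
  have hq200 : 180 ≤ 20 * (p + 1) := by omega
  have htr := transfer P (fun i => acorr (fInd A1) (i.2 - i.1) / nrm) hx
    (q := 20 * (p + 1)) hq200 he0 he (hunb.trans ?_)
  · rw [hPc] at htr
    simp only [div_pow] at htr
    rw [← Finset.sum_div, le_div_iff₀ (by positivity)] at htr
    rw [mul_pow, momS, ← Finset.sum_product' (s := D) (t := D)
      (f := fun v w => acorr (fInd A1) (w - v) ^ (20 * (p + 1)))]
    rw [mul_assoc] at htr
    simpa [div_pow] using htr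
  · refine Finset.sum_le_sum fun i hi => pow_le_pow_left₀ (le_max_left _ _) (max_le ?_ ?_) _
    · have := hx i hi; positivity
    · obtain ⟨h1, h2⟩ := Finset.mem_product.1 hi
      have h3 := hac _ (hDZ _ h1 _ h2)
      simp only [hu]
      rw [← sub_nonneg] at h3 ⊢
      have e4 : acorr (fInd A1) (i.2 - i.1) / nrm + 2 * e - (1 + acorr h (i.2 - i.1) / nrm)
          = (acorr (fInd A1) (i.2 - i.1) - (acorr h (i.2 - i.1) + (1 - 2 * e) * nrm)) / nrm := by
        field_simp; ring
      rw [e4]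
      exact div_nonneg h3 hpos.le

end Vale.Agent.P057.ThreeAP
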