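import Vale.Agent.P057.ThreeAP.Basic

/-!
Unbalancing, lifting to a centred kernel, and sifting with two-sided concentration.
-/

namespace Vale.Agent.P057.ThreeAP

open Finset

set_option linter.unusedSectionVars false

/-- From a large even moment of a spectrally positive family to a large moment of the shift. -/
lemma unbalance {ι : Type*} (P : Finset ι) (u : ι → ℝ) {p : ℕ} (hpe : Even p) (hp3 : 3 ≤ p)
    (hodd : 0 ≤ ∑ i ∈ P, u i ^ (p + 1))
    (hmom : (P.card : ℝ) * (1 / 3) ^ p ≤ ∑ i ∈ P, u i ^ p) :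
    (P.card : ℝ) * (25 / 24) ^ (20 * (p + 1)) ≤ ∑ i ∈ P, max 0 (1 + u i) ^ (20 * (p + 1)) := by
  set N : ℝ := (P.card : ℝ) with hN
  have hodd' : Odd (p + 1) := Even.add_one hpe
  have h1 : ∀ i ∈ P, (1 / 6) * (u i ^ p - (1 / 6 : ℝ) ^ p)
      ≤ 2 * (max 0 (u i)) ^ (p + 1) - u i ^ (p + 1) := by
    intro i _
    have hup : u i ^ p = |u i| ^ p := (hpe.pow_abs _).symm
    have habs : 2 * (max 0 (u i)) ^ (p + 1) - u i ^ (p + 1) = |u i| ^ (p + 1) := by
      rcases le_or_gt 0 (u i) with h | h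
      · rw [max_eq_right h, abs_of_nonneg h]; ring
      · rw [max_eq_left h.le, abs_of_neg h, hodd'.neg_pow]; simp
    rw [habs, hup, pow_succ]
    rcases le_or_gt (1 / 6 : ℝ) |u i| with h | h
    · have : (0 : ℝ) ≤ (1 / 6) ^ p := by positivity
      have : 0 ≤ |u i| ^ p := by positivity
      nlinarith
    · have : |u i| ^ p ≤ (1 / 6 : ℝ) ^ p := pow_le_pow_left₀ (abs_nonneg _) h.le p
      have : 0 ≤ |u i| ^ p * |u i| := by positivity
      nlinarith
  have hpos : (N * (1 / 3) ^ p - N * (1 / 6) ^ p) / 6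
      ≤ 2 * ∑ i ∈ P, (max 0 (u i)) ^ (p + 1) := by
    have := Finset.sum_le_sum h1
    rw [← Finset.mul_sum, Finset.sum_sub_distrib, Finset.sum_sub_distrib, ← Finset.mul_sum,
      Finset.sum_const, nsmul_eq_mul] at this
    linarith
  have h2 : ∀ i ∈ P, (12 : ℝ) ^ (p + 1) * (max 0 (u i)) ^ (p + 1) - 2 ^ (p + 1)
      ≤ (max 0 (1 + u i) / (25 / 24)) ^ (20 * (p + 1)) := by
    intro i _
    rcases le_or_gt (u i) (1 / 6) with h | h
    · have h6 : (max 0 (u i)) ^ (p + 1) ≤ (1 / 6 : ℝ) ^ (p + 1) :=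
        pow_le_pow_left₀ (le_max_left _ _) (max_le (by norm_num) h) _
      have e : (12 : ℝ) ^ (p + 1) * (1 / 6) ^ (p + 1) = 2 ^ (p + 1) := by
        rw [← mul_pow]; norm_num
      have : (0 : ℝ) ≤ (max 0 (1 + u i) / (25 / 24)) ^ (20 * (p + 1)) := by positivity
      nlinarith [pow_pos (show (0 : ℝ) < 12 by norm_num) (p + 1)]
    · have hu : 0 ≤ u i := by linarith
      rw [max_eq_right hu, max_eq_right (by linarith), pow_mul, ← mul_pow]
      refine le_trans (sub_le_self _ (by positivity)) (pow_le_pow_left₀ (by positivity) ?_ _)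
      have hb := one_add_mul_le_pow (a := (0.6 : ℝ) * u i) (by linarith) 20
      have hle : 1 + 0.6 * u i ≤ (1 + u i) / (25 / 24) := by
        rw [le_div_iff₀ (by norm_num)]; linarith
      calc 12 * u i ≤ 1 + (20 : ℕ) * (0.6 * u i) := by push_cast; linarith
        _ ≤ _ := hb
        _ ≤ _ := pow_le_pow_left₀ (by positivity) hle 20
  have hsum := Finset.sum_le_sum h2
  rw [Finset.sum_sub_distrib, ← Finset.mul_sum, Finset.sum_const, nsmul_eq_mul] at hsum
  rw [Finset.sum_congr rfl fun i (_ : i ∈ P) => div_pow (max 0 (1 + u i)) (25 / 24 : ℝ) (20 * (p + 1))]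
    at hsum
  rw [← Finset.sum_div, le_div_iff₀ (show (0 : ℝ) < (25 / 24) ^ (20 * (p + 1)) by positivity)] at hsum
  refine le_trans ?_ hsum
  refine mul_le_mul_of_nonneg_right ?_ (by positivity)
  have e1 : (12 : ℝ) ^ (p + 1) * (1 / 3) ^ p = 12 * 4 ^ p := by
    rw [pow_succ, mul_right_comm, ← mul_pow]; norm_num; ring
  have e2 : (12 : ℝ) ^ (p + 1) * (1 / 6) ^ p = 12 * 2 ^ p := by
    rw [pow_succ, mul_right_comm, ← mul_pow]; norm_num; ring
  have h8 : (8 : ℝ) ≤ 2 ^ p := by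
    calc (8 : ℝ) = 2 ^ 3 := by norm_num
      _ ≤ 2 ^ p := pow_le_pow_right₀ (by norm_num) hp3
  have h4 : (4 : ℝ) ^ p = 2 ^ p * 2 ^ p := by rw [← mul_pow]; norm_num
  have hN0 : 0 ≤ N := by positivity
  have hm := mul_le_mul_of_nonneg_left hpos (show (0 : ℝ) ≤ 12 ^ (p + 1) by positivity)
  rw [pow_succ 2 p]
  nlinarith [mul_nonneg hN0 (show (0 : ℝ) ≤ 2 ^ p * (2 ^ p - 8) by nlinarith)]

lemma transfer {ι : Type*} (P : Finset ι) (x : ι → ℝ) (hx : ∀ i ∈ P, 0 ≤ x i) {q : ℕ}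
    (hq : 180 ≤ q) {e : ℝ} (he0 : 0 ≤ e) (he : e ≤ 1 / 1000)
    (hmom : (P.card : ℝ) * (25 / 24) ^ q ≤ ∑ i ∈ P, (x i + 2 * e) ^ q) :
    (P.card : ℝ) * (41 / 40) ^ q ≤ ∑ i ∈ P, x i ^ q := by
  have h1 : ∀ i ∈ P, (x i + 2 * e) ^ q ≤ (1004 / 1000) ^ q * x i ^ q + (51 / 100) ^ q := by
    intro i hi
    have := hx i hi
    rcases le_or_gt (1 / 2) (x i) with h | h
    · rw [← mul_pow]
      have h2 : (x i + 2 * e) ^ q ≤ (1004 / 1000 * x i) ^ q :=
        pow_le_pow_left₀ (by positivity) (by linarith) q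
      have : (0 : ℝ) ≤ (51 / 100) ^ q := by positivity
      linarith
    · have h2 : (x i + 2 * e) ^ q ≤ (51 / 100) ^ q :=
        pow_le_pow_left₀ (by positivity) (by linarith) q
      have : (0 : ℝ) ≤ (1004 / 1000) ^ q * x i ^ q := by positivity
      linarith
  have h2 := hmom.trans (Finset.sum_le_sum h1)
  rw [Finset.sum_add_distrib, ← Finset.mul_sum, Finset.sum_const, nsmul_eq_mul] at h2
  have hb : ∀ a : ℝ, 1 + 1 / 180 ≤ a → 2 ≤ a ^ q := by
    intro a ha
    calc (2 : ℝ) ≤ 1 + (180 : ℕ) * (1 / 180) := by norm_num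
      _ ≤ (1 + 1 / 180) ^ 180 := one_add_mul_le_pow (by norm_num) 180
      _ ≤ (1 + 1 / 180) ^ q := pow_le_pow_right₀ (by norm_num) hq
      _ ≤ a ^ q := pow_le_pow_left₀ (by norm_num) ha q
  have hA : (2 : ℝ) * ((1004 / 1000) ^ q * (41 / 40) ^ q) ≤ (25 / 24) ^ q := by
    have := hb ((25 / 24) / (1004 / 1000 * (41 / 40))) (by norm_num)
    rw [div_pow, le_div_iff₀ (by positivity), mul_pow] at this
    exact this
  have hB : (2 : ℝ) * (51 / 100) ^ q ≤ (25 / 24) ^ q := by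
    have := hb ((25 / 24) / (51 / 100)) (by norm_num)
    rw [div_pow, le_div_iff₀ (by positivity)] at this
    exact this
  have hN : (0 : ℝ) ≤ P.card := by positivity
  have hpos : (0 : ℝ) < (1004 / 1000) ^ q := by positivity
  refine le_of_mul_le_mul_left ?_ hpos
  nlinarith [mul_le_mul_of_nonneg_left hA hN, mul_le_mul_of_nonneg_left hB hN]

variable {G : Type*} [AddCommGroup G] [Fintype G] [DecidableEq G]

/-- A moment on a set `C` inside `E` transfers to some translate of a centred kernel. -/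
lemma lift_translate (φ : G → ℝ) (hφ : ∀ x, 0 ≤ φ x) (C E E' D : Finset G) (hCE : C ⊆ E)
    (hE' : E'.Nonempty) (hsub : ∀ x ∈ E, ∀ v ∈ D, ∀ w ∈ D, x - (w - v) ∈ E') :
    ∃ t : G, (D.card : ℝ) ^ 2 * ∑ c ∈ C, φ c
      ≤ E'.card * ∑ v ∈ D, ∑ w ∈ D, φ (t + w - v) := by
  obtain ⟨t, ht, hmax⟩ := Finset.exists_max_image E'
    (fun t => ∑ v ∈ D, ∑ w ∈ D, φ (t + w - v)) hE'
  refine ⟨t, ?_⟩
  have h1 : ∀ v ∈ D, ∀ w ∈ D, ∑ c ∈ C, φ c ≤ ∑ t' ∈ E', φ (t' + w - v) := by
    intro v hv w hw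
    have e : ∑ c ∈ C, φ c = ∑ t' ∈ C.image (fun c => c - (w - v)), φ (t' + w - v) := by
      rw [Finset.sum_image fun a _ b _ h => by simpa using h]
      refine Finset.sum_congr rfl fun c _ => ?_
      congr 1; abel
    rw [e]
    refine Finset.sum_le_sum_of_subset_of_nonneg ?_ fun _ _ _ => hφ _
    intro a ha
    obtain ⟨c, hc, rfl⟩ := Finset.mem_image.1 ha
    exact hsub c (hCE hc) v hv w hw
  calc (D.card : ℝ) ^ 2 * ∑ c ∈ C, φ c = ∑ v ∈ D, ∑ w ∈ D, ∑ c ∈ C, φ c := by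
        simp; ring
    _ ≤ ∑ v ∈ D, ∑ w ∈ D, ∑ t' ∈ E', φ (t' + w - v) :=
        Finset.sum_le_sum fun v hv => Finset.sum_le_sum fun w hw => h1 v hv w hw
    _ = ∑ t' ∈ E', ∑ v ∈ D, ∑ w ∈ D, φ (t' + w - v) := by
        simp_rw [Finset.sum_comm (t := E')]
    _ ≤ ∑ t' ∈ E', ∑ v ∈ D, ∑ w ∈ D, φ (t + w - v) := Finset.sum_le_sum hmax
    _ = _ := by simp

/-- The moment sequence of the autocorrelation of a set over pairs from `D`. -/
def momS (A D : Finset G) (k : ℕ) : ℝ := ∑ v ∈ D, ∑ w ∈ D, acorr (fInd A) (w - v) ^ k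

lemma acorr_fInd_nonneg (A : Finset G) (x : G) : 0 ≤ acorr (fInd A) x :=
  Finset.sum_nonneg fun _ _ => mul_nonneg (fInd_nonneg _ _) (fInd_nonneg _ _)

lemma acorr_fInd_le (A : Finset G) (x : G) : acorr (fInd A) x ≤ A.card := by
  rw [← sum_fInd A]
  exact Finset.sum_le_sum fun u _ =>
    mul_le_of_le_one_right (fInd_nonneg _ _) (fInd_le_one _ _)

lemma momS_logconvex (A D : Finset G) (k : ℕ) :
    momS A D (k + 1) ^ 2 ≤ momS A D k * momS A D (k + 2) := by
  have h0 := acorr_fInd_nonneg A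
  simp only [momS, ← Finset.sum_product']
  refine Finset.sum_sq_le_sum_mul_sum_of_sq_le_mul _ (fun i _ => pow_nonneg (h0 _) _)
    (fun i _ => pow_nonneg (h0 _) _) (fun i _ => le_of_eq ?_)
  ring

lemma sift_choose (M : ℕ → ℝ) (hpos : ∀ k, 0 < M k) (hconv : ∀ k, M (k + 1) ^ 2 ≤ M k * M (k + 2))
    {n θ δ : ℝ} (hn : ∀ k, M (k + 1) ≤ n * M k) (hθ : 0 < θ) (hδ : 0 < δ) {q K : ℕ} (hq : 0 < q)
    (hMq : M 0 * θ ^ q ≤ M q) (hK : n < (1 + δ) ^ K * θ) :
    ∃ k, k ≤ q + K ∧ θ * M k ≤ M (k + 1) ∧ M 0 * θ ^ k ≤ M k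
      ∧ M (k + 2) * M k ≤ (1 + δ) * M (k + 1) ^ 2 := by
  set R : ℕ → ℝ := fun k => M (k + 1) / M k with hR
  have hRmono : Monotone R := by
    refine monotone_nat_of_le_succ fun k => ?_
    simp only [hR]
    rw [div_le_div_iff₀ (hpos k) (hpos (k + 1))]
    have := hconv k
    nlinarith
  have hup : ∀ j ≤ q, M j ≤ R q ^ j * M 0 := by
    intro j hj
    induction j with
    | zero => simp
    | succ j ih =>
      have h2 : M (j + 1) = R j * M j := by simp only [hR]; field_simp [(hpos j).ne']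
      rw [h2, pow_succ']
      rw [mul_assoc]
      exact mul_le_mul (hRmono (by omega)) (ih (by omega)) (hpos j).le
        (div_pos (hpos _) (hpos _)).le
  have hRq : θ ≤ R q := by
    by_contra hlt
    push Not at hlt
    have h3 := hup q le_rfl
    have h4 : R q ^ q < θ ^ q := pow_lt_pow_left₀ hlt (div_pos (hpos _) (hpos _)).le (by omega)
    nlinarith [hpos 0]
  have hlow : ∀ j, θ ^ q * θ ^ j * M 0 ≤ M (q + j) := by
    intro j
    induction j with
    | zero => simpa [mul_comm] using hMq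
    | succ j ih =>
      have h2 : M (q + (j + 1)) = R (q + j) * M (q + j) := by
        simp only [hR]; rw [← add_assoc]; field_simp [(hpos (q + j)).ne']
      have h5 : θ ≤ R (q + j) := hRq.trans (hRmono (by omega))
      rw [h2, pow_succ]
      calc θ ^ q * (θ ^ j * θ) * M 0 = θ * (θ ^ q * θ ^ j * M 0) := by ring
        _ ≤ _ := mul_le_mul h5 ih (by have := hpos 0; positivity) (by linarith)
  have hex : ∃ j < K + 1, R (q + j + 1) ≤ (1 + δ) * R (q + j) := by
    by_contra hcon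
    push Not at hcon
    have : ∀ j ≤ K, (1 + δ) ^ j * θ ≤ R (q + j) := by
      intro j hj
      induction j with
      | zero => simpa using hRq
      | succ j ih =>
        have := ih (by omega)
        have h6 := hcon j (by omega)
        rw [← add_assoc, pow_succ]
        nlinarith
    have h7 := this K le_rfl
    have h8 : R (q + K) ≤ n := by
      simp only [hR]; rw [div_le_iff₀ (hpos _)]; exact hn _
    linarith
  obtain ⟨j, hj, hjR⟩ := hex
  refine ⟨q + j, by omega, ?_, ?_, ?_⟩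
  · have := hRq.trans (hRmono (show q ≤ q + j by omega))
    simp only [hR] at this
    exact (le_div_iff₀ (hpos _)).1 this
  · rw [pow_add, mul_comm]; exact hlow j
  · simp only [hR] at hjR
    rw [mul_div_assoc', div_le_div_iff₀ (hpos _) (hpos _)] at hjR
    exact le_of_le_of_eq hjR (by ring)

/-- Sifting: a large moment gives a set whose difference weights make the autocorrelation
concentrate around a large value. -/
lemma sift (A D : Finset G) {θ δ : ℝ} {q K : ℕ} (hD : D.Nonempty) (hq : 0 < q) (hθ : 0 < θ)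
    (hδ : 0 < δ) (hMq : (D.card : ℝ) ^ 2 * θ ^ q ≤ momS A D q)
    (hK : (A.card : ℝ) < (1 + δ) ^ K * θ) :
    ∃ X ⊆ D, X.Nonempty ∧ ∃ R : ℝ, θ ≤ R ∧ ∃ k, k ≤ q + K ∧
      (θ / A.card) ^ k * D.card ≤ 4 * X.card ∧
      ∑ v ∈ X, ∑ w ∈ X, (acorr (fInd A) (w - v) - R) ^ 2 ≤ 4 * δ * R ^ 2 * (X.card : ℝ) ^ 2 := by
  have hDc : (0 : ℝ) < D.card := by exact_mod_cast Finset.card_pos.2 hD
  have hr0 := acorr_fInd_nonneg A
  have hM0 : momS A D 0 = (D.card : ℝ) ^ 2 := by simp [momS]; ring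
  have hpos : ∀ k, 0 < momS A D k := by
    have hq' : 0 < momS A D q := lt_of_lt_of_le (by positivity) hMq
    have hex : ∃ v ∈ D, ∃ w ∈ D, 0 < acorr (fInd A) (w - v) := by
      by_contra hcon
      push Not at hcon
      have : momS A D q = 0 := Finset.sum_eq_zero fun v hv => Finset.sum_eq_zero fun w hw => by
        rw [le_antisymm (hcon v hv w hw) (hr0 _), zero_pow (by omega)]
      linarith
    intro k
    obtain ⟨v, hv, w, hw, hvw⟩ := hex
    exact Finset.sum_pos' (fun _ _ => Finset.sum_nonneg fun _ _ => pow_nonneg (hr0 _) _)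
      ⟨v, hv, Finset.sum_pos' (fun _ _ => pow_nonneg (hr0 _) _) ⟨w, hw, pow_pos hvw _⟩⟩
  have hn : ∀ k, momS A D (k + 1) ≤ (A.card : ℝ) * momS A D k := by
    intro k
    simp only [momS, Finset.mul_sum]
    refine Finset.sum_le_sum fun v _ => Finset.sum_le_sum fun w _ => ?_
    rw [pow_succ']
    exact mul_le_mul_of_nonneg_right (acorr_fInd_le A _) (pow_nonneg (hr0 _) _)
  obtain ⟨k, hk, hR1, hlow, hconv⟩ := sift_choose (momS A D) hpos (momS_logconvex A D) hn hθ hδ hq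
    (by rw [hM0]; exact hMq) hK
  rw [hM0] at hlow
  set R := momS A D (k + 1) / momS A D k with hRdef
  have hMk := hpos k
  have hθR : θ ≤ R := by rw [hRdef, le_div_iff₀ hMk]; exact hR1
  have hRpos : 0 < R := lt_of_lt_of_le hθ hθR
  have hA : (0 : ℝ) < A.card := by
    by_contra h
    have h0 : A.card = 0 := by exact_mod_cast le_antisymm (not_lt.1 h) (by positivity)
    have h1 := hn k
    rw [h0, Nat.cast_zero, zero_mul] at h1
    exact not_lt.2 h1 (hpos (k + 1))
  set sv := fun s : Fin k → G => sieve A D s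
  set Q : (Fin k → G) → ℝ := fun s => ∑ v ∈ sv s, ∑ w ∈ sv s,
    (acorr (fInd A) (w - v) - R) ^ 2 with hQ
  have hsumQ : ∑ s, Q s ≤ δ * R ^ 2 * momS A D k := by
    have e : ∑ s, Q s = momS A D (k + 2) - 2 * R * momS A D (k + 1) + R ^ 2 * momS A D k := by
      simp only [hQ, sv]
      rw [sieve_sum A D k fun x => (acorr (fInd A) x - R) ^ 2]
      simp only [momS, Finset.mul_sum, ← Finset.sum_sub_distrib, ← Finset.sum_add_distrib]
      exact Finset.sum_congr rfl fun v _ => Finset.sum_congr rfl fun w _ => by ring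
    have e2 : momS A D (k + 1) = R * momS A D k := by rw [hRdef]; field_simp
    rw [e2] at hconv e
    have h9 : momS A D (k + 2) ≤ (1 + δ) * R ^ 2 * momS A D k := by
      refine le_of_mul_le_mul_right ?_ hMk
      exact hconv.trans_eq (by ring)
    rw [e]
    linarith only [h9]
  have hsumsq : ∑ s, ((sv s).card : ℝ) ^ 2 = momS A D k := by
    have h := sieve_sum A D k fun _ => (1 : ℝ)
    simp only [one_mul, Finset.sum_const, nsmul_eq_mul, mul_one] at h
    rw [momS, ← h]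
    exact Finset.sum_congr rfl fun s _ => by simp only [sv]; ring
  set τ := momS A D k / (4 * ((D.card : ℝ) * (A.card : ℝ) ^ k)) with hτ
  have hτpos : 0 < τ := by positivity
  have hex : ∃ s, τ ≤ (sv s).card ∧ Q s ≤ 4 * δ * R ^ 2 * ((sv s).card : ℝ) ^ 2 := by
    by_contra hcon
    push Not at hcon
    have hc : ∀ s, ((sv s).card : ℝ) ^ 2 ≤ τ * (sv s).card + Q s / (4 * δ * R ^ 2) := by
      intro s
      have hQ0 : 0 ≤ Q s := Finset.sum_nonneg fun _ _ => Finset.sum_nonneg fun _ _ => sq_nonneg _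
      rcases le_or_gt τ ((sv s).card : ℝ) with h | h
      · have h10 : ((sv s).card : ℝ) ^ 2 ≤ Q s / (4 * δ * R ^ 2) := by
          rw [le_div_iff₀ (by positivity)]; linarith [hcon s h]
        have : 0 ≤ τ * (sv s).card := by positivity
        linarith
      · have : 0 ≤ Q s / (4 * δ * R ^ 2) := by positivity
        nlinarith [show (0 : ℝ) ≤ (sv s).card by positivity]
    have hs := Finset.sum_le_sum fun s (_ : s ∈ Finset.univ) => hc s
    rw [hsumsq, Finset.sum_add_distrib, ← Finset.mul_sum, ← Finset.sum_div,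
      sum_sieve_card] at hs
    have h11 : τ * ((D.card : ℝ) * (A.card : ℝ) ^ k) = momS A D k / 4 := by
      rw [hτ]; field_simp
    have h12 : (∑ s, Q s) / (4 * δ * R ^ 2) ≤ momS A D k / 4 := by
      rw [div_le_iff₀ (by positivity)]; linarith only [hsumQ]
    linarith
  obtain ⟨s, hs1, hs2⟩ := hex
  refine ⟨sv s, Finset.filter_subset _ _, ?_, R, hθR, k, hk, ?_, hs2⟩
  · refine Finset.card_pos.1 ?_
    exact_mod_cast lt_of_lt_of_le hτpos hs1
  · rw [hτ, div_le_iff₀ (by positivity)] at hs1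
    rw [div_pow, div_mul_eq_mul_div, div_le_iff₀ (by positivity)]
    refine le_of_mul_le_mul_left ?_ hDc
    nlinarith

end Vale.Agent.P057.ThreeAP
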