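import Vale.Agent.P057.ThreeAP.Basic

/-!
Almost periods by random sampling, in a one-sided averaged form.
-/

namespace Vale.Agent.P057.ThreeAP

open Finset

set_option linter.unusedSectionVars false

variable {G : Type*} [AddCommGroup G] [Fintype G] [DecidableEq G]

lemma exp_le_quad {y : ℝ} (h : |y| ≤ 1) : Real.exp y ≤ 1 + y + y ^ 2 := by
  linarith [(abs_le.1 (Real.abs_exp_sub_one_sub_id_le h)).2]

/-- Exponential moment bound for sampling from a finite set. -/
lemma sample_tail (X : Finset G) (z : G → ℝ) (μ : ℝ) (m : ℕ) (hX : ∑ x ∈ X, z x = X.card * μ)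
    (hb : ∀ x ∈ X, |z x - μ| ≤ 1) {ε : ℝ} (h0 : 0 < ε) (h1 : ε ≤ 1) :
    (((Fintype.piFinset fun _ : Fin m => X).filter fun v => ε * m < |∑ i, (z (v i) - μ)|).card : ℝ)
      ≤ 2 * Real.exp (-(ε ^ 2 * m / 4)) * (X.card : ℝ) ^ m := by
  set P := Fintype.piFinset fun _ : Fin m => X with hP
  have key : ∀ l : ℝ, |l| = ε / 2 → ∑ v ∈ P, Real.exp (l * ∑ i, (z (v i) - μ))
      ≤ Real.exp (ε ^ 2 * m / 4) * (X.card : ℝ) ^ m := by
    intro l hl
    have hb1 : ∑ x ∈ X, Real.exp (l * (z x - μ)) ≤ X.card * Real.exp (ε ^ 2 / 4) := by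
      calc ∑ x ∈ X, Real.exp (l * (z x - μ))
          ≤ ∑ x ∈ X, ((1 + ε ^ 2 / 4) + l * (z x - μ)) := by
            refine Finset.sum_le_sum fun x hx => ?_
            have h2 : |l * (z x - μ)| ≤ ε / 2 := by
              rw [abs_mul, hl]; exact mul_le_of_le_one_right (by linarith) (hb x hx)
            have := exp_le_quad (h2.trans (by linarith))
            have : (l * (z x - μ)) ^ 2 ≤ (ε / 2) ^ 2 := by
              rw [← sq_abs]; exact pow_le_pow_left₀ (abs_nonneg _) h2 2
            linarith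
        _ = X.card * (1 + ε ^ 2 / 4) := by
            rw [Finset.sum_add_distrib, ← Finset.mul_sum, Finset.sum_sub_distrib, hX]
            simp
            ring
        _ ≤ _ := by
            gcongr; linarith [Real.add_one_le_exp (ε ^ 2 / 4)]
    calc ∑ v ∈ P, Real.exp (l * ∑ i, (z (v i) - μ))
        = (∑ x ∈ X, Real.exp (l * (z x - μ))) ^ m := by
          rw [Finset.sum_pow', hP]
          refine Finset.sum_congr rfl fun v _ => ?_
          rw [← Real.exp_sum, Finset.mul_sum]
      _ ≤ (X.card * Real.exp (ε ^ 2 / 4)) ^ m :=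
          pow_le_pow_left₀ (Finset.sum_nonneg fun _ _ => (Real.exp_pos _).le) hb1 m
      _ = _ := by rw [mul_pow, ← Real.exp_nat_mul]; ring_nf
  have hpoint : ∀ v ∈ P, (if ε * m < |∑ i, (z (v i) - μ)| then (1 : ℝ) else 0)
      * Real.exp (ε ^ 2 * m / 2) ≤ Real.exp (ε / 2 * ∑ i, (z (v i) - μ))
        + Real.exp (-(ε / 2) * ∑ i, (z (v i) - μ)) := by
    intro v _
    split_ifs with h
    · rw [one_mul]
      rcases lt_abs.1 h with h' | h'
      · refine le_add_of_le_of_nonneg (Real.exp_le_exp.2 ?_) (Real.exp_pos _).le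
        nlinarith
      · refine le_add_of_nonneg_of_le (Real.exp_pos _).le (Real.exp_le_exp.2 ?_)
        nlinarith
    · rw [zero_mul]; positivity
  have := Finset.sum_le_sum hpoint
  rw [← Finset.sum_mul, Finset.sum_add_distrib, Finset.sum_boole] at this
  have k1 := key (ε / 2) (abs_of_pos (by positivity))
  have k2 := key (-(ε / 2)) (by rw [abs_neg]; exact abs_of_pos (by positivity))
  have e : Real.exp (ε ^ 2 * m / 2) * Real.exp (-(ε ^ 2 * m / 4)) = Real.exp (ε ^ 2 * m / 4) := by
    rw [← Real.exp_add]; congr 1; ring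
  refine le_of_mul_le_mul_right ?_ (Real.exp_pos (ε ^ 2 * m / 2))
  calc _ ≤ 2 * Real.exp (ε ^ 2 * m / 4) * (X.card : ℝ) ^ m := by linarith
    _ = _ := by rw [← e]; ring

/-- The probability that `u - v` lands in `N`, for `v` uniform in `X`. -/
noncomputable def hit (X N : Finset G) (u : G) : ℝ := (∑ v ∈ X, fInd N (u - v)) / X.card

lemma hit_nonneg (X N : Finset G) (u : G) : 0 ≤ hit X N u :=
  div_nonneg (Finset.sum_nonneg fun _ _ => fInd_nonneg _ _) (by positivity)

lemma hit_le_one (X N : Finset G) (u : G) : hit X N u ≤ 1 := by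
  refine div_le_one_of_le₀ ?_ (by positivity)
  calc ∑ v ∈ X, fInd N (u - v) ≤ ∑ v ∈ X, (1 : ℝ) := Finset.sum_le_sum fun _ _ => fInd_le_one _ _
    _ = _ := by simp

/-- Almost periods for an averaged hitting probability. -/
lemma almost_periods (X N Dp D' : Finset G) (hXne : X.Nonempty) (hD' : D'.Nonempty)
    (hshift : ∀ u ∈ X, ∀ s ∈ D', ∀ s' ∈ D', u + (s - s') ∈ Dp)
    (hsub : ∀ v ∈ X, ∀ s ∈ D', v - s ∈ Dp) {ε : ℝ} (h0 : 0 < ε) (h1 : ε ≤ 1) {m : ℕ}
    (hm : 4 * (Dp.card : ℝ) ≤ ε * X.card * Real.exp (ε ^ 2 * m / 4)) :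
    ∃ T ⊆ D', T.Nonempty ∧ (D'.card : ℝ) * (X.card : ℝ) ^ m ≤ 2 * (Dp.card : ℝ) ^ m * T.card ∧
      ∀ s ∈ T, ∀ s' ∈ T, ∑ w ∈ X, hit X N (w + (s - s'))
        ≤ ∑ w ∈ X, hit X N w + 4 * ε * X.card := by
  set P := Fintype.piFinset fun _ : Fin m => X with hP
  have hXc : (0 : ℝ) < X.card := by exact_mod_cast Finset.card_pos.2 hXne
  set bad : (Fin m → G) → Finset G := fun v =>
    Dp.filter fun u => ε * m < |∑ i, (fInd N (u - v i) - hit X N u)| with hbad
  have hsum : ∑ v ∈ P, ((bad v).card : ℝ) ≤ ε * X.card / 2 * (X.card : ℝ) ^ m := by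
    have h2 : ∀ u, ((P.filter fun v => ε * m < |∑ i, (fInd N (u - v i) - hit X N u)|).card : ℝ)
        ≤ 2 * Real.exp (-(ε ^ 2 * m / 4)) * (X.card : ℝ) ^ m := fun u =>
      sample_tail X (fun x => fInd N (u - x)) (hit X N u) m
        (by rw [hit]; field_simp)
        (fun x _ => abs_le.2 ⟨by linarith [fInd_nonneg N (u - x), hit_le_one X N u],
          by linarith [fInd_le_one N (u - x), hit_nonneg X N u]⟩) h0 h1
    calc ∑ v ∈ P, ((bad v).card : ℝ)
        = ∑ u ∈ Dp, ((P.filter fun v =>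
            ε * m < |∑ i, (fInd N (u - v i) - hit X N u)|).card : ℝ) := by
          simp_rw [hbad, ← Finset.sum_boole]
          exact Finset.sum_comm
      _ ≤ ∑ u ∈ Dp, 2 * Real.exp (-(ε ^ 2 * m / 4)) * (X.card : ℝ) ^ m :=
          Finset.sum_le_sum fun u _ => h2 u
      _ = 2 * (Dp.card * Real.exp (-(ε ^ 2 * m / 4))) * (X.card : ℝ) ^ m := by simp; ring
      _ ≤ _ := by
          refine mul_le_mul_of_nonneg_right ?_ (by positivity)
          rw [Real.exp_neg, ← mul_assoc, ← div_eq_mul_inv, div_le_iff₀ (Real.exp_pos _)]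
          linarith
  set good := P.filter fun v => ((bad v).card : ℝ) ≤ ε * X.card with hgood
  have hgood_card : (X.card : ℝ) ^ m / 2 ≤ good.card := by
    have hc : ∀ v ∈ P, ε * X.card * (1 - if ((bad v).card : ℝ) ≤ ε * X.card then (1 : ℝ) else 0)
        ≤ (bad v).card := by
      intro v _
      split_ifs with h
      · simp
      · linarith [not_le.1 h]
    have := (Finset.sum_le_sum hc).trans hsum
    rw [← Finset.mul_sum, Finset.sum_sub_distrib, Finset.sum_boole, ← hgood] at this
    simp only [Finset.sum_const, nsmul_eq_mul, mul_one] at this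
    have hPc : (P.card : ℝ) = (X.card : ℝ) ^ m := by simp [hP]
    rw [hPc] at this
    have hεX : 0 < ε * X.card := by positivity
    nlinarith
  set W := Fintype.piFinset fun _ : Fin m => Dp
  have hWne : W.Nonempty := by
    obtain ⟨x, hx⟩ := hXne
    obtain ⟨s, hs⟩ := hD'
    exact ⟨fun _ => x - s, Fintype.mem_piFinset.2 fun _ => hsub x hx s hs⟩
  obtain ⟨w, -, hw⟩ := Finset.exists_max_image W
    (fun w => ((good ×ˢ D').filter fun p => (fun i => p.1 i - p.2) = w).card) hWne
  have hfib : (good ×ˢ D').card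
      ≤ ((good ×ˢ D').filter fun p => (fun i => p.1 i - p.2) = w).card * W.card :=
    Finset.card_le_mul_card_image_of_maps_to (f := fun p => fun i => p.1 i - p.2)
      (fun p hp => by
        obtain ⟨hp1, hp2⟩ := Finset.mem_product.1 hp
        exact Fintype.mem_piFinset.2 fun i =>
          hsub _ (Fintype.mem_piFinset.1 (Finset.mem_filter.1 hp1).1 i) _ hp2) _ hw
  set T := D'.filter fun s => (fun i => w i + s) ∈ good with hT
  have hTfib : ((good ×ˢ D').filter fun p => (fun i => p.1 i - p.2) = w).card ≤ T.card := by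
    refine Finset.card_le_card_of_injOn (fun p => p.2) ?_ ?_
    · intro p hp
      simp only [Finset.mem_coe, Finset.mem_filter, Finset.mem_product] at hp
      simp only [hT, Finset.mem_coe, Finset.mem_filter]
      refine ⟨hp.1.2, ?_⟩
      have : (fun i => w i + p.2) = p.1 := by funext i; rw [← hp.2]; simp
      rw [this]; exact hp.1.1
    · intro p hp p' hp' he
      simp only [Finset.mem_coe, Finset.mem_filter] at hp hp'
      refine Prod.ext ?_ he
      funext i
      have e1 := congrFun hp.2 i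
      have e2 := congrFun hp'.2 i
      simp only at e1 e2 he
      rw [← sub_add_cancel (p.1 i) p.2, e1, he, ← e2, sub_add_cancel]
  have hsize : (D'.card : ℝ) * (X.card : ℝ) ^ m ≤ 2 * (Dp.card : ℝ) ^ m * T.card := by
    have hW : (W.card : ℝ) = (Dp.card : ℝ) ^ m := by simp [W]
    have h3 : ((good ×ˢ D').card : ℝ) ≤ T.card * W.card := by
      exact_mod_cast hfib.trans (Nat.mul_le_mul_right _ hTfib)
    rw [Finset.card_product, Nat.cast_mul, hW] at h3
    nlinarith [mul_le_mul_of_nonneg_right hgood_card (Nat.cast_nonneg D'.card : (0 : ℝ) ≤ _)]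
  refine ⟨T, Finset.filter_subset _ _, ?_, hsize, ?_⟩
  · refine Finset.card_pos.1 (Nat.pos_of_ne_zero fun h => ?_)
    rw [h, Nat.cast_zero, mul_zero] at hsize
    have : (0 : ℝ) < D'.card := by exact_mod_cast Finset.card_pos.2 hD'
    nlinarith [pow_pos hXc m]
  intro s hs s' hs'
  simp only [hT, Finset.mem_filter] at hs hs'
  set v := fun i => w i + s'
  set v' := fun i => w i + s
  have hv : ((bad v).card : ℝ) ≤ ε * X.card := (Finset.mem_filter.1 hs'.2).2
  have hv' : ((bad v').card : ℝ) ≤ ε * X.card := (Finset.mem_filter.1 hs.2).2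
  rcases Nat.eq_zero_or_pos m with hm0 | hmpos
  · have hDX : (X.card : ℝ) ≤ Dp.card := by
      obtain ⟨t, ht⟩ := hD'
      exact_mod_cast Finset.card_le_card_of_injOn (fun x => x - t)
        (fun x hx => hsub x hx t ht) fun a _ b _ h => by simpa using h
    subst hm0
    simp at hm
    nlinarith
  have hmR : (0 : ℝ) < m := by exact_mod_cast hmpos
  have hpt : ∀ u ∈ X, hit X N (u + (s - s')) ≤ hit X N u + 2 * ε
      + fInd (bad v) u + fInd (bad v') (u + (s - s')) := by
    intro u hu
    have hu1 : u ∈ Dp := by simpa using hshift u hu s hs.1 s hs.1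
    have hu2 := hshift u hu s hs.1 s' hs'.1
    have := hit_le_one X N (u + (s - s'))
    have := hit_nonneg X N u
    have := fInd_nonneg (bad v) u
    have := fInd_nonneg (bad v') (u + (s - s'))
    by_cases hb1 : u ∈ bad v
    · have : fInd (bad v) u = 1 := if_pos hb1
      linarith
    by_cases hb2 : u + (s - s') ∈ bad v'
    · have : fInd (bad v') (u + (s - s')) = 1 := if_pos hb2
      linarith
    simp only [hbad, Finset.mem_filter, not_and, not_lt] at hb1 hb2
    have c1 := abs_le.1 (hb1 hu1)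
    have c2 := abs_le.1 (hb2 hu2)
    have e : ∑ i, fInd N (u + (s - s') - v' i) = ∑ i, fInd N (u - v i) :=
      Finset.sum_congr rfl fun i _ => by
        simp only [v, v']
        congr 1; abel
    simp only [Finset.sum_sub_distrib, Finset.sum_const, Finset.card_univ, Fintype.card_fin,
      nsmul_eq_mul] at c1 c2
    rw [e] at c2
    nlinarith
  refine (Finset.sum_le_sum hpt).trans ?_
  rw [Finset.sum_add_distrib, Finset.sum_add_distrib, Finset.sum_add_distrib]
  have b1 : ∑ u ∈ X, fInd (bad v) u ≤ (bad v).card := by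
    rw [← sum_fInd (bad v)]
    exact Finset.sum_le_sum_of_subset_of_nonneg (Finset.subset_univ _)
      fun _ _ _ => fInd_nonneg _ _
  have b2 : ∑ u ∈ X, fInd (bad v') (u + (s - s')) ≤ (bad v').card := by
    rw [← sum_fInd (bad v'), ← Equiv.sum_comp (Equiv.addRight (s - s')) (fInd (bad v'))]
    exact Finset.sum_le_sum_of_subset_of_nonneg (Finset.subset_univ _)
      fun _ _ _ => fInd_nonneg _ _
  simp only [Finset.sum_const, nsmul_eq_mul]
  nlinarith

end Vale.Agent.P057.ThreeAP
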