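import Vale.Agent.P057.ThreeAP.Moments
import Vale.Agent.P057.ThreeAP.Period
import Vale.Agent.P057.ThreeAP.Chang

/-!
From a large moment to a density increment on a Bohr set of slightly larger rank.
-/

namespace Vale.Agent.P057.ThreeAP

open Finset

set_option linter.unusedSectionVars false

variable {G : Type*} [AddCommGroup G] [Fintype G] [DecidableEq G]

/-- The rank gained in one step. -/
def rankGain (L : ℕ) : ℕ := 10 ^ 31 * L ^ 4

lemma numeric_rank {L M q k l1 m : ℕ} (hL : 1 ≤ L) (hM : M = 10 ^ 10) (hq : q ≤ 400 * L)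
    (hk : k ≤ q + M * (L + 2)) (hl1 : l1 = (L + 1) * k + 2) (hm : m = 4000000 * (l1 + 20)) :
    10 * (m * (l1 + 1) + 2 + 1) + 1 ≤ rankGain L := by
  have h1 : k ≤ 4 * 10 ^ 10 * L := by subst hM; nlinarith
  have h2 : l1 ≤ 10 ^ 11 * L ^ 2 := by
    have h3 := Nat.mul_le_mul (show L + 1 ≤ 2 * L by omega) h1
    have : 1 ≤ L ^ 2 := Nat.one_le_pow _ _ hL
    rw [hl1]; nlinarith
  have hL2 : 1 ≤ L ^ 2 := Nat.one_le_pow _ _ hL
  have h4 : m ≤ 4000000 * (2 * 10 ^ 11) * L ^ 2 := by rw [hm]; nlinarith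
  have h5 := Nat.mul_le_mul h4 (show l1 + 1 ≤ 2 * 10 ^ 11 * L ^ 2 by nlinarith)
  have hL4 : L ^ 4 = L ^ 2 * L ^ 2 := by ring
  simp only [rankGain, hL4]
  nlinarith

/-- Averaged version of the almost-period statement in terms of pairs. -/
lemma pair_hit (X N : Finset G) (hX : X.Nonempty) (t : G) :
    ∑ w ∈ X, hit X N (w + t) = (∑ w ∈ X, ∑ v ∈ X, fInd N (w - v + t)) / X.card := by
  simp only [hit, ← Finset.sum_div]
  congr 1
  refine Finset.sum_congr rfl fun w _ => Finset.sum_congr rfl fun v _ => ?_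
  congr 1; abel

/-- Concentration and an almost period force a concentrated spectrum. -/
lemma energy_spec (A X T : Finset G) (hX : X.Nonempty) (hT : T.Nonempty) {R δ : ℝ} (hR : 0 < R)
    (hδ0 : 0 ≤ δ) (hδ : δ ≤ 1 / 10 ^ 10)
    (hconc : ∑ v ∈ X, ∑ w ∈ X, (acorr (fInd A) (w - v) - R) ^ 2 ≤ 4 * δ * R ^ 2 * (X.card : ℝ) ^ 2)
    (N : Finset G) (hN : N = Finset.univ.filter fun x => R / 1000 < |acorr (fInd A) x - R|)
    (hper : ∀ s ∈ T, ∀ s' ∈ T, ∑ w ∈ X, hit X N (w + (s - s'))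
      ≤ ∑ w ∈ X, hit X N w + 4 * (1 / 1000) * X.card) :
    (Fintype.card G : ℝ) * (0.989 * R) ≤
      ∑ ψ ∈ Finset.univ.filter (fun ψ : AddChar G ℂ =>
        (T.card : ℝ) ^ 2 / 2 ≤ Complex.normSq (cs T ψ)), Complex.normSq (ft (fInd A) ψ) := by
  set r := acorr (fInd A) with hr
  set Xc : ℝ := (X.card : ℝ) with hXc
  set Tc : ℝ := (T.card : ℝ) with hTc
  have hXpos : 0 < Xc := by simp only [hXc]; exact_mod_cast Finset.card_pos.2 hX
  have hTpos : 0 < Tc := by simp only [hTc]; exact_mod_cast Finset.card_pos.2 hT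
  have hr0 := acorr_fInd_nonneg A
  have hconc' : ∑ w ∈ X, ∑ v ∈ X, (r (w - v) - R) ^ 2 ≤ 4 / 10 ^ 10 * R ^ 2 * Xc ^ 2 := by
    rw [Finset.sum_comm]
    refine hconc.trans ?_
    have := mul_le_mul_of_nonneg_right hδ (show 0 ≤ 4 * (R ^ 2 * Xc ^ 2) by positivity)
    nlinarith
  -- bad pairs are rare
  have hbad0 : ∑ w ∈ X, ∑ v ∈ X, fInd N (w - v) ≤ 0.0004 * Xc ^ 2 := by
    have hp : ∀ x, fInd N x * (R / 1000) ^ 2 ≤ (r x - R) ^ 2 := by
      intro x
      unfold fInd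
      split_ifs with h
      · rw [one_mul, ← sq_abs (r x - R)]
        rw [hN, Finset.mem_filter] at h
        exact pow_le_pow_left₀ (by positivity) h.2.le 2
      · rw [zero_mul]; positivity
    have := (Finset.sum_le_sum fun w (_ : w ∈ X) =>
      Finset.sum_le_sum fun v (_ : v ∈ X) => hp (w - v)).trans hconc'
    simp_rw [← Finset.sum_mul] at this
    refine le_of_mul_le_mul_right ?_ (show 0 < (R / 1000) ^ 2 by positivity)
    exact this.trans_eq (by norm_num; ring)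
  have hbad : ∀ s ∈ T, ∀ s' ∈ T,
      ∑ w ∈ X, ∑ v ∈ X, fInd N (w - v + (s - s')) ≤ 0.0044 * Xc ^ 2 := by
    intro s hs s' hs'
    have h := hper s hs s' hs'
    have h0 := pair_hit X N hX 0
    simp only [add_zero] at h0
    rw [pair_hit X N hX, h0, ← hXc, div_add' _ _ _ hXpos.ne', div_le_div_iff_of_pos_right hXpos] at h
    nlinarith
  have hg0up : ∑ w ∈ X, ∑ v ∈ X, r (w - v) ≤ 1.00002 * R * Xc ^ 2 := by
    have hp : ∀ x, r x * R ≤ 1.00001 * R ^ 2 + (r x - R) ^ 2 * 25000 := by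
      intro x; nlinarith [sq_nonneg ((r x - R) * 50000 - R)]
    have := Finset.sum_le_sum fun w (_ : w ∈ X) => Finset.sum_le_sum fun v (_ : v ∈ X) => hp (w - v)
    simp_rw [Finset.sum_add_distrib, ← Finset.sum_mul, Finset.sum_const, nsmul_eq_mul] at this
    refine le_of_mul_le_mul_right ?_ hR
    nlinarith
  have hg1 : Tc ^ 2 * (0.999 * R * (0.9956 * Xc ^ 2))
      ≤ ∑ x ∈ X, ∑ y ∈ X, ∑ s ∈ T, ∑ s' ∈ T, r (x - y + (s - s')) := by
    have hp : ∀ x, 0.999 * R * (1 - fInd N x) ≤ r x := by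
      intro x
      unfold fInd
      split_ifs with h
      · simpa using hr0 x
      · rw [hN, Finset.mem_filter] at h
        simp only [Finset.mem_univ, true_and, not_lt] at h
        have := (abs_le.1 h).1
        linarith
    simp_rw [Finset.sum_comm (s := X) (t := T)]
    calc Tc ^ 2 * (0.999 * R * (0.9956 * Xc ^ 2))
        = ∑ s ∈ T, ∑ s' ∈ T, 0.999 * R * (0.9956 * Xc ^ 2) := by simp [hTc]; ring
      _ ≤ ∑ s ∈ T, ∑ s' ∈ T, ∑ x ∈ X, ∑ y ∈ X,
            0.999 * R * (1 - fInd N (x - y + (s - s'))) := by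
          refine Finset.sum_le_sum fun s hs => Finset.sum_le_sum fun s' hs' => ?_
          simp_rw [← Finset.mul_sum, Finset.sum_sub_distrib, Finset.sum_const, nsmul_eq_mul,
            mul_one, ← hXc]
          refine mul_le_mul_of_nonneg_left ?_ (by positivity)
          nlinarith [hbad s hs s' hs']
      _ ≤ _ := Finset.sum_le_sum fun s _ => Finset.sum_le_sum fun s' _ =>
          Finset.sum_le_sum fun x _ => Finset.sum_le_sum fun y _ => hp _
  set gc : ℝ := (Fintype.card G : ℝ) with hgc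
  set F := fun ψ : AddChar G ℂ => Complex.normSq (ft (fInd A) ψ) with hF
  set a := fun ψ : AddChar G ℂ => F ψ * Complex.normSq (cs X ψ) with ha
  have ha0 : ∀ ψ, 0 ≤ a ψ := fun ψ => mul_nonneg (Complex.normSq_nonneg _) (Complex.normSq_nonneg _)
  have f1 : ∑ ψ, a ψ = gc * ∑ w ∈ X, ∑ v ∈ X, r (w - v) := fourier_one _ X
  have f2 : ∑ ψ, a ψ * Complex.normSq (cs T ψ)
      = gc * ∑ x ∈ X, ∑ y ∈ X, ∑ s ∈ T, ∑ s' ∈ T, r (x - y + (s - s')) := fourier_two _ X T
  set S := Finset.univ.filter (fun ψ : AddChar G ℂ => Tc ^ 2 / 2 ≤ Complex.normSq (cs T ψ))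
    with hS
  have hsplit : ∀ ψ, 2 * (a ψ * Complex.normSq (cs T ψ)) - Tc ^ 2 * a ψ
      ≤ Tc ^ 2 * (if ψ ∈ S then Xc ^ 2 * F ψ else 0) := by
    intro ψ
    split_ifs with h
    · have h1 : a ψ ≤ Xc ^ 2 * F ψ := by
        simp only [ha]; rw [mul_comm]
        exact mul_le_mul_of_nonneg_right (normSq_cs_le X ψ) (Complex.normSq_nonneg _)
      have h2 := mul_le_mul_of_nonneg_left (normSq_cs_le T ψ) (ha0 ψ)
      nlinarith [sq_nonneg Tc]
    · simp only [hS, Finset.mem_filter, Finset.mem_univ, true_and, not_le] at h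
      have := mul_le_mul_of_nonneg_left h.le (ha0 ψ)
      linarith
  have hsum := Finset.sum_le_sum fun ψ (_ : ψ ∈ Finset.univ) => hsplit ψ
  rw [Finset.sum_sub_distrib, ← Finset.mul_sum, ← Finset.mul_sum, ← Finset.mul_sum, f1, f2,
    Finset.sum_ite_mem, Finset.univ_inter, ← Finset.mul_sum] at hsum
  have hgc0 : 0 ≤ gc := by positivity
  have k1 := mul_le_mul_of_nonneg_left hg1 hgc0
  have k2 := mul_le_mul_of_nonneg_left hg0up (mul_nonneg (sq_nonneg Tc) hgc0)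
  have k3 : (0 : ℝ) ≤ gc * R * Xc ^ 2 * Tc ^ 2 := by positivity
  refine le_of_mul_le_mul_left ?_ (show 0 < Tc ^ 2 * Xc ^ 2 by positivity)
  linarith

lemma ratio_near_one {Γ : Finset (AddChar G ℂ)} {r μ : ℝ} (hs : Stable Γ r μ) {ξ : AddChar G ℂ}
    (hbig : ((bohr Γ r).card : ℝ) < 2 * ‖cs (bohr Γ r) ξ‖) {x : G} (hx : x ∈ bohr Γ μ) :
    ‖ξ x - 1‖ ≤ 1 / 1000 := by
  set Q := bohr Γ r with hQ
  set Q' := Q.image (fun q => q + x) with hQ'
  have hQ'c : Q'.card = Q.card := Finset.card_image_of_injective _ (add_left_injective x)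
  have hsub : Q' ⊆ bohr Γ (r + μ) := fun y hy => by
    obtain ⟨q, hq, rfl⟩ := Finset.mem_image.1 hy
    exact add_mem_bohr hq hx le_rfl
  have hsubQ : Q ⊆ bohr Γ (r + μ) := bohr_mono (by linarith [hs.pos])
  have hdiff : ((Q' \ Q).card : ℝ) ≤ (Q.card : ℝ) / 4000 := by
    have h1 : (Q' \ Q).card + Q.card ≤ (bohr Γ (r + μ)).card := by
      rw [← Finset.card_union_of_disjoint Finset.sdiff_disjoint]
      exact Finset.card_le_card (Finset.union_subset (Finset.sdiff_subset.trans hsub) hsubQ)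
    have h1' : ((Q' \ Q).card : ℝ) + Q.card ≤ (bohr Γ (r + μ)).card := by exact_mod_cast h1
    linarith [hs.out]
  have hdiff2 : (Q \ Q').card = (Q' \ Q).card := Finset.card_sdiff_comm hQ'c.symm
  have hnorm : ∀ s : Finset G, ‖∑ y ∈ s, ξ y‖ ≤ s.card := fun s => by
    refine (norm_sum_le _ _).trans ?_; simp [AddChar.norm_apply]
  have key : (ξ x - 1) * cs Q ξ = (∑ y ∈ Q' \ Q, ξ y) - ∑ y ∈ Q \ Q', ξ y := by
    have e1 : ξ x * cs Q ξ = ∑ y ∈ Q', ξ y := by
      rw [hQ', Finset.sum_image (add_left_injective x).injOn, cs, Finset.mul_sum]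
      exact Finset.sum_congr rfl fun q _ => by rw [AddChar.map_add_eq_mul, mul_comm]
    rw [sub_mul, one_mul, e1, cs, Finset.sum_sdiff_sub_sum_sdiff]
  have h := congrArg norm key
  rw [norm_mul] at h
  have h2 : ‖ξ x - 1‖ * ‖cs Q ξ‖ ≤ (Q.card : ℝ) / 2000 := by
    rw [h]
    refine (norm_sub_le _ _).trans ?_
    have := hnorm (Q' \ Q)
    have := hnorm (Q \ Q')
    have : ((Q \ Q').card : ℝ) = (Q' \ Q).card := by exact_mod_cast hdiff2
    linarith
  by_contra hcon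
  push Not at hcon
  nlinarith [norm_nonneg (cs Q ξ), norm_nonneg (ξ x - 1)]

lemma combo_near_one {Λ : Finset (AddChar G ℂ)} (e : ↥Λ → Fin 3) (i₀ : ↥Λ) (hi₀ : e i₀ ≠ 0)
    {x : G} {a b : ℝ} (hξ : ‖combo Λ e x - 1‖ ≤ a)
    (hothers : ∀ i : ↥Λ, i ≠ i₀ → ‖(i : AddChar G ℂ) x - 1‖ ≤ b) (hb : 0 ≤ b) :
    ‖(i₀ : AddChar G ℂ) x - 1‖ ≤ a + Λ.card * b := by
  have hconjnorm : ∀ ψ : AddChar G ℂ, ‖ψ (-x) - 1‖ = ‖ψ x - 1‖ := by
    intro ψ
    have h1 : ψ (-x) - 1 = ψ (-x) * (1 - ψ x) := by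
      rw [mul_sub, mul_one, ← AddChar.map_add_eq_mul, neg_add_cancel, AddChar.map_zero_eq_one]
    rw [h1, norm_mul, AddChar.norm_apply, one_mul, norm_sub_rev]
  set f : ↥Λ → ℂ := fun i => if e i = 1 then (i : AddChar G ℂ) x
    else if e i = 2 then (i : AddChar G ℂ) (-x) else 1 with hf
  have hfn : ∀ i, ‖f i‖ = 1 := fun i => by
    simp only [hf]; split_ifs <;> simp [AddChar.norm_apply]
  have hprod : ∀ s : Finset ↥Λ, i₀ ∉ s → ‖(∏ i ∈ s, f i) - 1‖ ≤ s.card * b := by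
    intro s
    induction s using Finset.induction with
    | empty => simp
    | insert a' s ha ih =>
      intro hni
      simp only [Finset.mem_insert, not_or] at hni
      rw [Finset.prod_insert ha, Finset.card_insert_of_notMem ha]
      refine (norm_mul_sub_one (hfn a')).trans ?_
      have h2 : ‖f a' - 1‖ ≤ b := by
        simp only [hf]
        split_ifs
        · exact hothers a' (Ne.symm hni.1)
        · rw [hconjnorm]; exact hothers a' (Ne.symm hni.1)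
        · simpa using hb
      have := ih hni.2
      push_cast
      linarith
  set P := ∏ i ∈ Finset.univ.erase i₀, f i with hP
  have hsplit : combo Λ e x = f i₀ * P := by
    rw [combo_apply, hP, Finset.mul_prod_erase _ _ (Finset.mem_univ i₀)]
  have hPb : ‖P - 1‖ ≤ Λ.card * b := by
    refine (hprod _ (Finset.notMem_erase _ _)).trans ?_
    refine mul_le_mul_of_nonneg_right ?_ hb
    exact_mod_cast (Finset.card_le_univ _).trans_eq (Fintype.card_coe Λ)
  have hf0 : ‖f i₀ - 1‖ ≤ a + Λ.card * b := by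
    have h3 : f i₀ - 1 = (f i₀ * P - 1) - f i₀ * (P - 1) := by ring
    rw [h3]
    refine (norm_sub_le _ _).trans ?_
    rw [norm_mul, hfn, one_mul, ← hsplit]
    linarith
  simp only [hf] at hf0
  split_ifs at hf0 with h1 h2
  · exact hf0
  · rwa [hconjnorm] at hf0
  · generalize e i₀ = j at h1 h2 hi₀
    fin_cases j <;> simp_all

lemma zero_outside_of_dissoc {Q : Finset G} {Λ Λ' : Finset (AddChar G ℂ)} (hsub : Λ ⊆ Λ')
    (e : ↥Λ' → Fin 3) (hout : ∀ i : ↥Λ', (i : AddChar G ℂ) ∉ Λ → e i = 0) :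
    combo Λ' e = combo Λ (fun i => e ⟨i, hsub i.2⟩) := by
  classical
  ext x
  rw [combo_apply, combo_apply]
  set F : AddChar G ℂ → ℂ := fun ψ =>
    if h : ψ ∈ Λ' then (if e ⟨ψ, h⟩ = 1 then ψ x else if e ⟨ψ, h⟩ = 2 then ψ (-x) else 1) else 1
  have h1 : ∀ i : ↥Λ', F i = if e i = 1 then (i : AddChar G ℂ) x
      else if e i = 2 then (i : AddChar G ℂ) (-x) else 1 := fun i => by simp [F]
  have h2 : ∀ i : ↥Λ, F i = if e ⟨i, hsub i.2⟩ = 1 then (i : AddChar G ℂ) x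
      else if e ⟨i, hsub i.2⟩ = 2 then (i : AddChar G ℂ) (-x) else 1 := fun i => by
    simp [F, hsub i.2]
  rw [← Finset.prod_congr rfl fun i _ => h1 i, ← Finset.prod_congr rfl fun i _ => h2 i]
  rw [Finset.prod_coe_sort Λ' F, Finset.prod_coe_sort Λ F]
  refine (Finset.prod_subset hsub fun ψ hψ hn => ?_).symm
  simp [F, hψ, hout ⟨ψ, hψ⟩ hn]

lemma dissoc_subset {Q : Finset G} {Λ Λ' : Finset (AddChar G ℂ)} (hsub : Λ ⊆ Λ')
    (h : Dissoc Q Λ') : Dissoc Q Λ := by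
  classical
  intro e he
  let e' : ↥Λ' → Fin 3 := fun i =>
    if hi : (i : AddChar G ℂ) ∈ Λ then e ⟨i, hi⟩ else 0
  have h0 : e' ≠ 0 := by
    obtain ⟨i, hi⟩ := Function.ne_iff.1 he
    refine Function.ne_iff.2 ⟨⟨i, hsub i.2⟩, ?_⟩
    simpa [e'] using hi
  have h1 := h e' h0
  rw [zero_outside_of_dissoc (Q := Q) hsub e' (fun i hi => by simp [e', hi])] at h1
  simpa [e'] using h1

/-- The large spectrum is annihilated by a Bohr set with few extra frequencies. -/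
lemma spectrum_control {Γ : Finset (AddChar G ℂ)} {r μ : ℝ} (hs : Stable Γ r μ)
    (E Ein T : Finset G) {N l : ℕ} (hN : 10 * (l + 1) + 1 ≤ N) (hT : T.Nonempty) (hTE : T ⊆ Ein)
    (hE : ∀ x ∈ Ein, ∀ j ≤ 2 * N, ∀ q : Fin j → G, (∀ i, q i ∈ bohr Γ r) → x - ∑ i, q i ∈ E)
    (hl : (E.card : ℝ) ≤ 2 ^ l * T.card) :
    ∃ Δ : Finset (AddChar G ℂ), Δ.card ≤ N ∧ ∀ τ : ℝ, 0 ≤ τ → τ ≤ μ → τ * (2 * N) ≤ 1 / 1000 →
      ∀ Γ' : Finset (AddChar G ℂ), Γ ⊆ Γ' → Δ ⊆ Γ' → ∀ x ∈ bohr Γ' τ,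
      ∀ ψ : AddChar G ℂ, (T.card : ℝ) ^ 2 / 2 ≤ Complex.normSq (cs T ψ) → ‖ψ x - 1‖ ≤ 2 / 1000 := by
  classical
  set S := Finset.univ.filter (fun ψ : AddChar G ℂ =>
    (T.card : ℝ) ^ 2 / 2 ≤ Complex.normSq (cs T ψ)) with hS
  set Q := bohr Γ r with hQdef
  have hQ : Q.Nonempty := Finset.card_pos.1 (bohr_card_pos (by linarith [hs.pos, hs.le]))
  set fam := (S.powerset).filter fun Λ => Dissoc Q Λ with hfam
  have hemp : (∅ : Finset (AddChar G ℂ)) ∈ fam := by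
    simp only [hfam, Finset.mem_filter, Finset.empty_mem_powerset, true_and]
    intro e he
    exact absurd (Subsingleton.elim e 0) he
  obtain ⟨Λ, hΛ, hmax⟩ := Finset.exists_max_image fam Finset.card ⟨∅, hemp⟩
  simp only [hfam, Finset.mem_filter, Finset.mem_powerset] at hΛ hmax
  have hbound : ∀ Λ' : Finset (AddChar G ℂ), Λ' ⊆ S → Λ'.card ≤ N → Dissoc Q Λ' →
      Λ'.card ≤ 10 * (l + 1) := fun Λ' h1 h2 h3 =>
    dissoc_bound Q E Ein T Λ' hQ hT hTE (fun x hx q hq => hE x hx _ (by omega) q hq) h3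
      (fun ψ hψ => (Finset.mem_filter.1 (h1 hψ)).2) hl
  have hcard : Λ.card ≤ 10 * (l + 1) := by
    by_contra hlt
    push Not at hlt
    obtain ⟨Λ', hsub, hc⟩ := Finset.exists_subset_card_eq (show 10 * (l + 1) + 1 ≤ Λ.card by omega)
    have := hbound Λ' (hsub.trans hΛ.1) (by omega) (dissoc_subset hsub hΛ.2)
    omega
  refine ⟨Λ, by omega, ?_⟩
  intro τ hτ0 hτμ hτN Γ' hΓ hΔ x hx ψ hψ
  have hxl : ∀ φ ∈ Λ, ‖φ x - 1‖ ≤ τ := fun φ hφ => mem_bohr.1 hx φ (hΔ hφ)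
  by_cases hmem : ψ ∈ Λ
  · have hτ2 : τ * 2 ≤ τ * (2 * N) := by
      have : (1 : ℝ) ≤ N := by exact_mod_cast (show 1 ≤ N by omega)
      nlinarith
    linarith [hxl ψ hmem]
  have hψS : ψ ∈ S := by simp [hS, hψ]
  set Λ' := insert ψ Λ with hΛ'
  have hnd : ¬ Dissoc Q Λ' := fun hd => by
    have := hmax Λ' ⟨Finset.insert_subset hψS hΛ.1, hd⟩
    rw [hΛ', Finset.card_insert_of_notMem hmem] at this
    omega
  simp only [Dissoc] at hnd
  push Not at hnd
  obtain ⟨e, he0, hbig⟩ := hnd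
  set i₀ : ↥Λ' := ⟨ψ, Finset.mem_insert_self _ _⟩ with hi₀
  have hi : e i₀ ≠ 0 := by
    intro hz
    have hout : ∀ i : ↥Λ', (i : AddChar G ℂ) ∉ Λ → e i = 0 := by
      intro i hi
      rcases Finset.mem_insert.1 i.2 with h | h
      · have : i = i₀ := Subtype.ext h
        rw [this]; exact hz
      · exact absurd h hi
    rw [zero_outside_of_dissoc (Q := Q) (Finset.subset_insert ψ Λ) e hout] at hbig
    refine not_le.2 hbig (hΛ.2 _ ?_)
    intro hzero
    apply he0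
    funext i
    by_cases h : (i : AddChar G ℂ) ∈ Λ
    · exact congrFun hzero ⟨i, h⟩
    · exact hout i h
  have hξ := ratio_near_one hs hbig (bohr_anti hΓ (bohr_mono hτμ hx))
  have hres := combo_near_one e i₀ hi hξ (fun i hne => hxl _ (by
    rcases Finset.mem_insert.1 i.2 with h | h
    · exact absurd (Subtype.ext h) hne
    · exact h)) hτ0
  have hc' : (Λ'.card : ℝ) ≤ 2 * N := by
    exact_mod_cast (Finset.card_insert_le ψ Λ).trans (by omega)
  have := mul_le_mul_of_nonneg_right hc' hτ0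
  simp only [hi₀] at hres
  linarith

/-- An L2 increment from a concentrated spectrum. -/
lemma l2_increment (A W : Finset G) (S : Finset (AddChar G ℂ)) (hW : W.Nonempty)
    (hS : ∀ ψ ∈ S, ∀ x ∈ W, ‖ψ x - 1‖ ≤ 2 / 1000) {κ : ℝ} (hκ : 0 ≤ κ)
    (hen : (Fintype.card G : ℝ) * (κ * A.card) ≤ ∑ ψ ∈ S, Complex.normSq (ft (fInd A) ψ))
    (hA : A.Nonempty) :
    ∃ s : G, 0.996 * κ * W.card ≤ ((W.filter fun x => s + x ∈ A).card : ℝ) := by
  set w : ℝ := (W.card : ℝ) with hw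
  have hwpos : 0 < w := by simp only [hw]; exact_mod_cast Finset.card_pos.2 hW
  have hApos : (0 : ℝ) < A.card := by exact_mod_cast Finset.card_pos.2 hA
  have hgpos : (0 : ℝ) < Fintype.card G := by exact_mod_cast Fintype.card_pos
  have hlow : ∀ ψ ∈ S, 0.996 * w ^ 2 ≤ Complex.normSq (cs W ψ) := by
    intro ψ hψ
    have h1 : ‖cs W ψ - (w : ℂ)‖ ≤ 0.002 * w := by
      have e : cs W ψ - (w : ℂ) = ∑ x ∈ W, (ψ x - 1) := by
        simp [cs, hw, Finset.sum_sub_distrib]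
      rw [e]
      refine (norm_sum_le _ _).trans ?_
      refine (Finset.sum_le_sum fun x hx => hS ψ hψ x hx).trans (le_of_eq ?_)
      simp [hw]; ring
    have h2 := norm_sub_norm_le (w : ℂ) (cs W ψ)
    rw [norm_sub_rev, Complex.norm_real, Real.norm_eq_abs, abs_of_pos hwpos] at h2
    rw [Complex.normSq_eq_norm_sq]
    nlinarith [norm_nonneg (cs W ψ)]
  set c : G → ℝ := fun s => ((W.filter fun x => s + x ∈ A).card : ℝ) with hc
  have hsq : ∑ s, c s ^ 2 = ∑ x ∈ W, ∑ y ∈ W, acorr (fInd A) (x - y) := by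
    have e : ∀ s, c s = ∑ x ∈ W, fInd A (s + x) := fun s => by
      simp only [hc, fInd]; rw [Finset.sum_boole]
    simp_rw [e, pow_two, Finset.sum_mul_sum, acorr_shift]
    rw [Finset.sum_comm]
    refine Finset.sum_congr rfl fun x _ => ?_
    rw [Finset.sum_comm]
    exact Finset.sum_congr rfl fun y _ => Finset.sum_congr rfl fun s _ => mul_comm _ _
  have hlin : ∑ s, c s = w * A.card := by
    have e : ∀ s, c s = ∑ x ∈ W, fInd A (s + x) := fun s => by
      simp only [hc, fInd]; rw [Finset.sum_boole]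
    simp_rw [e]
    rw [Finset.sum_comm]
    have : ∀ x, ∑ s, fInd A (s + x) = (A.card : ℝ) := fun x => by
      rw [← sum_fInd A]; exact Equiv.sum_comp (Equiv.addRight x) (fInd A)
    simp [this, hw]
  have hmain : 0.996 * κ * A.card * w ^ 2 ≤ ∑ s, c s ^ 2 := by
    rw [hsq]
    refine le_of_mul_le_mul_left ?_ hgpos
    rw [← fourier_one]
    calc (Fintype.card G : ℝ) * (0.996 * κ * A.card * w ^ 2)
        = 0.996 * w ^ 2 * ((Fintype.card G : ℝ) * (κ * A.card)) := by ring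
      _ ≤ 0.996 * w ^ 2 * ∑ ψ ∈ S, Complex.normSq (ft (fInd A) ψ) :=
          mul_le_mul_of_nonneg_left hen (by positivity)
      _ ≤ ∑ ψ ∈ S, Complex.normSq (ft (fInd A) ψ) * Complex.normSq (cs W ψ) := by
          rw [Finset.mul_sum]
          refine Finset.sum_le_sum fun ψ hψ => ?_
          rw [mul_comm]
          exact mul_le_mul_of_nonneg_left (hlow ψ hψ) (Complex.normSq_nonneg _)
      _ ≤ _ := Finset.sum_le_sum_of_subset_of_nonneg (Finset.subset_univ _)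
          fun _ _ _ => mul_nonneg (Complex.normSq_nonneg _) (Complex.normSq_nonneg _)
  obtain ⟨s, -, hmax⟩ := Finset.exists_max_image Finset.univ c ⟨0, Finset.mem_univ 0⟩
  refine ⟨s, ?_⟩
  have h5 : ∑ t, c t ^ 2 ≤ c s * (w * A.card) := by
    rw [← hlin, Finset.mul_sum]
    refine Finset.sum_le_sum fun t ht => ?_
    rw [pow_two]
    exact mul_le_mul_of_nonneg_right (hmax t ht) (Nat.cast_nonneg _)
  refine le_of_mul_le_mul_right ?_ (mul_pos hwpos hApos)
  calc 0.996 * κ * w * (w * A.card) = 0.996 * κ * A.card * w ^ 2 := by ring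
    _ ≤ _ := hmain.trans h5

/-- A large moment gives an increment on a Bohr set with boundedly more frequencies. -/
lemma moment_increment (A : Finset G) (Γ : Finset (AddChar G ℂ)) {d L : ℕ} (hL : 1 ≤ L)
    (hd : Γ.card + 1 ≤ d) {r μ nrm : ℝ} (hs : Stable Γ r μ) (hμ : μ ≤ 1) (hnrm : 0 < nrm)
    (hdens : (A.card : ℝ) ≤ 2 ^ (L + 1) * nrm) {q : ℕ} (hq0 : 0 < q) (hq : q ≤ 400 * L)
    (hmom : ((bohr Γ r).card : ℝ) ^ 2 * (41 / 40 * nrm) ^ q ≤ momS A (bohr Γ r) q) :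
    ∃ Δ : Finset (AddChar G ℂ), Δ.card ≤ rankGain L ∧
      ∀ τ : ℝ, 0 ≤ τ → τ ≤ μ / (4 * 96000 ^ 2 * (d : ℝ) ^ 2 * rankGain L) →
        ∀ Γ' : Finset (AddChar G ℂ), Γ ⊆ Γ' → Δ ⊆ Γ' →
          ∃ s : G, 1.009 * (nrm / A.card) * (bohr Γ' τ).card
            ≤ (((bohr Γ' τ).filter fun x => s + x ∈ A).card : ℝ) := by
  obtain ⟨M, hM⟩ : ∃ M : ℕ, M = 10 ^ 10 := ⟨_, rfl⟩
  have hMpos : 0 < M := by rw [hM]; norm_num
  set D := bohr Γ r with hDdef
  have hr : 0 ≤ r := by linarith [hs.pos, hs.le]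
  have hD : D.Nonempty := Finset.card_pos.1 (bohr_card_pos hr)
  have hDpos : (0 : ℝ) < D.card := by exact_mod_cast Finset.card_pos.2 hD
  have hK : (A.card : ℝ) < (1 + 1 / (M : ℝ)) ^ (M * (L + 2)) * (41 / 40 * nrm) := by
    have h1 : (2 : ℝ) ^ (L + 2) ≤ (1 + 1 / (M : ℝ)) ^ (M * (L + 2)) := by
      rw [pow_mul _ M]; exact pow_le_pow_left₀ (by norm_num) (le_one_add_inv_pow hMpos) _
    have h2 := mul_le_mul_of_nonneg_right h1 (show 0 ≤ 41 / 40 * nrm by positivity)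
    have h3 : (2 : ℝ) ^ (L + 2) = 2 * 2 ^ (L + 1) := by rw [pow_succ']
    have h4 : 0 < (2 : ℝ) ^ (L + 1) * nrm := by positivity
    rw [h3] at h2
    linarith
  obtain ⟨X, hXD, hX, R, hR, k, hk, hXsize, hconc⟩ :=
    sift A D hD hq0 (show 0 < 41 / 40 * nrm by positivity)
      (show (0 : ℝ) < 1 / (M : ℝ) by positivity) hmom hK
  have hXpos : (0 : ℝ) < X.card := by exact_mod_cast Finset.card_pos.2 hX
  obtain ⟨l1, hl1⟩ : ∃ l1, l1 = (L + 1) * k + 2 := ⟨_, rfl⟩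
  have hAne : A.Nonempty := by
    rw [Finset.nonempty_iff_ne_empty]
    intro h
    subst h
    rw [momS] at hmom
    have : ∑ v ∈ D, ∑ w ∈ D, acorr (fInd (∅ : Finset G)) (w - v) ^ q = 0 :=
      Finset.sum_eq_zero fun v _ => Finset.sum_eq_zero fun w _ => by
        simp [acorr, fInd, zero_pow hq0.ne']
    have hp : 0 < (D.card : ℝ) ^ 2 * (41 / 40 * nrm) ^ q := by positivity
    linarith
  have hApos : (0 : ℝ) < A.card := by exact_mod_cast Finset.card_pos.2 hAne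
  have hDX : (D.card : ℝ) ≤ 2 ^ l1 * X.card := by
    have h5 : 1 / (2 : ℝ) ^ (L + 1) ≤ 41 / 40 * nrm / A.card := by
      rw [div_le_div_iff₀ (by positivity) hApos]
      nlinarith
    have h6 := (mul_le_mul_of_nonneg_right (pow_le_pow_left₀ (by positivity) h5 k) hDpos.le).trans
      hXsize
    rw [div_pow, one_pow, div_mul_eq_mul_div, one_mul, div_le_iff₀ (by positivity), ← pow_mul] at h6
    rw [hl1, pow_add]
    linarith
  obtain ⟨m, hm⟩ : ∃ m, m = 4000000 * (l1 + 20) := ⟨_, rfl⟩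
  have hnum := numeric_rank hL hM hq hk hl1 hm
  obtain ⟨l, hl⟩ : ∃ l, l = m * (l1 + 1) + 2 := ⟨_, rfl⟩
  rw [← hl] at hnum
  obtain ⟨N, hN⟩ : ∃ N, N = rankGain L := ⟨_, rfl⟩
  rw [← hN] at hnum ⊢
  have hNpos : (0 : ℝ) < N := by exact_mod_cast (show 0 < N by omega)
  have hd1 : (1 : ℝ) ≤ d := by exact_mod_cast (show 1 ≤ d by omega)
  obtain ⟨r4, hr4a, hr4b, hs4⟩ := exists_stable Γ hd (show 0 < μ / 2 by linarith [hs.pos])
  set μ4 := μ / 2 / (96000 * (d : ℝ)) with hμ4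
  set Dp := bohr Γ (r + μ) with hDp
  set D' := bohr Γ r4 with hD'
  have hr40 : 0 ≤ r4 := by linarith [hs.pos]
  set Nb := Finset.univ.filter fun x => R / 1000 < |acorr (fInd A) x - R| with hNb
  have hDpD : (Dp.card : ℝ) ≤ 2 * D.card := by
    have := hs.out; simp only [← hDp, ← hDdef] at this; linarith
  have hDpX : (Dp.card : ℝ) ≤ 2 ^ (l1 + 1) * X.card := by
    rw [pow_succ]; linarith
  have hmcond : 4 * (Dp.card : ℝ) ≤ 1 / 1000 * X.card * Real.exp ((1 / 1000) ^ 2 * m / 4) := by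
    have e : (1 / 1000 : ℝ) ^ 2 * (m : ℝ) / 4 = (l1 + 20 : ℕ) := by rw [hm]; push_cast; ring
    rw [e]
    have h7 : (2 : ℝ) ^ (l1 + 20) ≤ Real.exp ((l1 + 20 : ℕ) : ℝ) := by
      rw [← mul_one ((l1 + 20 : ℕ) : ℝ), Real.exp_nat_mul]
      exact pow_le_pow_left₀ (by norm_num) (by linarith [Real.add_one_le_exp (1 : ℝ)]) _
    have h8 : (2 : ℝ) ^ (l1 + 20) = 524288 * 2 ^ (l1 + 1) := by
      rw [show l1 + 20 = 19 + (l1 + 1) by ring, pow_add]; norm_num
    have h9 := mul_le_mul_of_nonneg_left h7 (show 0 ≤ 1 / 1000 * (X.card : ℝ) by positivity)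
    rw [h8] at h9
    have : (0 : ℝ) ≤ 2 ^ (l1 + 1) * X.card := by positivity
    linarith
  obtain ⟨T, hTD, hT, hTsize, hper⟩ := almost_periods X Nb Dp D' hX
    (Finset.card_pos.1 (bohr_card_pos hr40))
    (fun u hu s hs' s' hs'' => add_mem_bohr (hXD hu) (sub_mem_bohr hs' hs'' le_rfl) (by linarith))
    (fun v hv s hs' => sub_mem_bohr (hXD hv) hs' (by linarith [hs.pos]))
    (by norm_num) (by norm_num) hmcond
  set E := bohr Γ (r4 + μ4) with hE
  have hEcard : (E.card : ℝ) ≤ 2 ^ l * T.card := by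
    have h10 : (E.card : ℝ) ≤ 2 * D'.card := by
      have := hs4.out; simp only [← hE, ← hD'] at this; linarith
    have h11 : (D'.card : ℝ) * (X.card : ℝ) ^ m
        ≤ 2 * 2 ^ ((l1 + 1) * m) * T.card * (X.card : ℝ) ^ m := by
      refine hTsize.trans ?_
      have h := pow_le_pow_left₀ (by positivity) hDpX m
      rw [mul_pow, ← pow_mul] at h
      have := mul_le_mul_of_nonneg_left h (show (0 : ℝ) ≤ 2 * T.card by positivity)
      linarith
    have h12 := le_of_mul_le_mul_right h11 (pow_pos hXpos m)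
    rw [hl, pow_add, mul_comm m]
    linarith
  obtain ⟨r5, hr5a, hr5b, hs5⟩ := exists_stable Γ hd
    (show 0 < μ4 / (2 * N) by have := hs4.pos; positivity)
  obtain ⟨Δ, hΔ, hspec⟩ := spectrum_control hs5 E D' T hnum hT hTD
    (fun x hx j hj q hq => by
      refine sub_mem_bohr hx (sum_mem_bohr (by linarith [hs5.pos, hs5.le]) q hq) ?_
      have h13 : (j : ℝ) * r5 ≤ μ4 := by
        have hj' : (j : ℝ) ≤ 2 * N := by exact_mod_cast hj
        calc (j : ℝ) * r5 ≤ 2 * N * (μ4 / (2 * N)) :=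
              mul_le_mul hj' hr5b (by linarith [hs5.pos, hs5.le]) (by positivity)
          _ = μ4 := by field_simp
      linarith) hEcard
  refine ⟨Δ, hΔ, ?_⟩
  intro τ hτ0 hτ Γ' hΓ' hΔ'
  have hμ5 : μ4 / (2 * N) / (96000 * (d : ℝ)) = μ / (4 * 96000 ^ 2 * (d : ℝ) ^ 2 * N) := by
    rw [hμ4]; field_simp; ring
  have hτN : τ * (2 * (N : ℝ)) ≤ 1 / 1000 := by
    refine (mul_le_mul_of_nonneg_right hτ (by positivity)).trans ?_
    rw [div_mul_eq_mul_div, div_le_iff₀ (by positivity)]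
    have h14 : (1 : ℝ) ≤ (d : ℝ) ^ 2 := one_le_pow₀ hd1
    nlinarith [hs.pos]
  have hW : (bohr Γ' τ).Nonempty := Finset.card_pos.1 (bohr_card_pos hτ0)
  have hRpos : 0 < R := lt_of_lt_of_le (by positivity) hR
  have hen := energy_spec A X T hX hT hRpos (show (0 : ℝ) ≤ 1 / (M : ℝ) by positivity)
    (by rw [hM]; norm_num) hconc Nb hNb hper
  obtain ⟨s, hs'⟩ := l2_increment A (bohr Γ' τ) _ hW
    (fun ψ hψ x hx => hspec τ hτ0 (hτ.trans_eq hμ5.symm) hτN Γ' hΓ' hΔ' x hx ψ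
      (Finset.mem_filter.1 hψ).2) (κ := 0.989 * R / A.card) (by positivity)
    (by
      rw [div_mul_cancel₀ _ hApos.ne']
      exact hen) hAne
  refine ⟨s, le_trans ?_ hs'⟩
  refine mul_le_mul_of_nonneg_right ?_ (by positivity)
  rw [mul_div_assoc', mul_div_assoc', div_le_div_iff_of_pos_right hApos]
  linarith

end Vale.Agent.P057.ThreeAP
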