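import Vale.Agent.P057.ThreeAP.Spectral
import Vale.Agent.P057.ThreeAP.Moment

/-!
One step of the density increment.
-/

namespace Vale.Agent.P057.ThreeAP

open Finset

set_option linter.unusedSectionVars false

variable {G : Type*} [AddCommGroup G] [Fintype G] [DecidableEq G]

/-- Number of elements of `B` that land in `A` after translation by `c`. -/
def hits (A : Finset G) (c : G) (B : Finset G) : ℝ := ((B.filter fun x => c + x ∈ A).card : ℝ)

lemma hits_le (A : Finset G) (c : G) (B : Finset G) : hits A c B ≤ B.card :=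
  Nat.cast_le.2 (Finset.card_filter_le _ _)

/-- The loss in radius in one step. -/
def radiusLoss (d L : ℕ) : ℝ :=
  128 * 96000 ^ 6 * (d : ℝ) ^ 5 * rankGain L * ((d : ℝ) + rankGain L)

lemma rankGain_pos {L : ℕ} (hL : 1 ≤ L) : 1 ≤ rankGain L := by
  unfold rankGain
  exact Nat.one_le_iff_ne_zero.2 (Nat.mul_ne_zero (by norm_num) (pow_ne_zero _ (by omega)))

lemma average_hits (A A0 X0 Q : Finset G) (a0 : G) (hA0 : ∀ u ∈ A0, a0 + u ∈ A)
    (hsub : ∀ u ∈ A0, ∀ v ∈ Q, u - v ∈ X0) :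
    (A0.card : ℝ) * Q.card ≤ ∑ x ∈ X0, hits A (a0 + x) Q := by
  have h1 : ∀ v ∈ Q, (A0.card : ℝ) ≤ ∑ x ∈ X0, fInd A (a0 + x + v) := by
    intro v hv
    simp only [fInd]
    rw [Finset.sum_boole]
    refine Nat.cast_le.2 (Finset.card_le_card_of_injOn (fun u => u - v) ?_
      (sub_left_injective.injOn))
    intro u hu
    simp only [Finset.mem_coe, Finset.mem_filter]
    refine ⟨hsub u hu v hv, ?_⟩
    have : a0 + (u - v) + v = a0 + u := by abel
    rw [this]
    exact hA0 u hu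
  calc (A0.card : ℝ) * Q.card = ∑ v ∈ Q, (A0.card : ℝ) := by simp [mul_comm]
    _ ≤ ∑ v ∈ Q, ∑ x ∈ X0, fInd A (a0 + x + v) := Finset.sum_le_sum h1
    _ = ∑ x ∈ X0, hits A (a0 + x) Q := by
        rw [Finset.sum_comm]
        refine Finset.sum_congr rfl fun x _ => ?_
        simp only [fInd, hits]
        rw [Finset.sum_boole]

set_option maxHeartbeats 1600000 in
/-- One step: either the situation is small, or the density rises by a constant factor. -/
theorem step (half : G ≃+ G) (hhalf : ∀ x, half x + half x = x) (A : Finset G)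
    (hfree : ∀ x ∈ A, ∀ y ∈ A, ∀ z ∈ A, x + z = y + y → x = y) {L d : ℕ} (hL : 1 ≤ L)
    {Γ : Finset (AddChar G ℂ)} (hd : Γ.card + 1 ≤ d) {ρ μ α : ℝ} (hs : Stable Γ ρ μ) (hμ1 : μ ≤ 1)
    (hα : 1 ≤ 2 ^ L * α) {a0 : G} (hdense : α * (bohr Γ ρ).card ≤ hits A a0 (bohr Γ ρ)) :
    (∃ r, μ / 4 ≤ r ∧ α ^ 2 * (bohr Γ r).card ≤ 20) ∨
    (∃ (Γ' : Finset (AddChar G ℂ)) (ρ' μ' : ℝ) (a : G), Γ'.card ≤ Γ.card + rankGain L ∧
      Stable Γ' ρ' μ' ∧ μ' ≤ 1 ∧ μ / radiusLoss d L ≤ μ' ∧
      1.002 * α * (bohr Γ' ρ').card ≤ hits A a (bohr Γ' ρ')) := by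
  classical
  set N := rankGain L with hN
  have hN1 : (1 : ℝ) ≤ N := by rw [hN]; exact_mod_cast rankGain_pos hL
  have hd1 : (1 : ℝ) ≤ d := by exact_mod_cast (show 1 ≤ d by omega)
  have hαpos : 0 < α := by
    by_contra h
    push Not at h
    nlinarith [pow_pos (show (0 : ℝ) < 2 by norm_num) L]
  have hμ := hs.pos
  have hd96 : (1 : ℝ) ≤ 96000 * d := by linarith
  obtain ⟨r1, hr1a, hr1b, hs1⟩ := exists_stable Γ hd (show 0 < μ / 2 by positivity)
  set μ1 := μ / 2 / (96000 * (d : ℝ)) with hμ1d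
  have hμ1pos := hs1.pos
  have hμ1le : μ1 ≤ μ / 2 := div_le_self (by positivity) hd96
  obtain ⟨r2, hr2a, hr2b, hs2⟩ := exists_stable Γ hd (show 0 < μ1 / 8 by positivity)
  set μ2 := μ1 / 8 / (96000 * (d : ℝ)) with hμ2d
  have hμ2pos := hs2.pos
  have hμ2le : μ2 ≤ μ1 / 8 := div_le_self (by positivity) hd96
  set B := bohr Γ r1 with hB
  set B2 := bohr Γ r2 with hB2
  have hloss1 : μ / radiusLoss d L ≤ μ1 ∧ μ / radiusLoss d L ≤ μ2 := by
    have hμ2le1 : μ2 ≤ μ1 := by linarith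
    have : μ / radiusLoss d L ≤ μ2 := by
      have e : μ2 = μ / (16 * 96000 ^ 2 * (d : ℝ) ^ 2) := by
        rw [hμ2d, hμ1d]; field_simp; ring
      rw [e]
      refine div_le_div_of_nonneg_left hμ.le (by positivity) ?_
      have h5 : (d : ℝ) ^ 2 ≤ (d : ℝ) ^ 5 := pow_le_pow_right₀ hd1 (by norm_num)
      have h6 : (1 : ℝ) ≤ (N : ℝ) * ((d : ℝ) + N) := by nlinarith
      have h7 := mul_le_mul h5 h6 zero_le_one (by positivity)
      simp only [radiusLoss, ← hN]
      nlinarith [sq_nonneg (d : ℝ)]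
    exact ⟨this.trans hμ2le1, this⟩
  by_cases hinc1 : ∃ c, 1.002 * α * B.card ≤ hits A c B
  · obtain ⟨c, hc⟩ := hinc1
    exact Or.inr ⟨Γ, r1, μ1, c, by omega, hs1, by linarith, hloss1.1, hc⟩
  by_cases hinc2 : ∃ c, 1.002 * α * B2.card ≤ hits A c B2
  · obtain ⟨c, hc⟩ := hinc2
    exact Or.inr ⟨Γ, r2, μ2, c, by omega, hs2, by linarith, hloss1.2, hc⟩
  push Not at hinc1 hinc2
  have hr10 : 0 ≤ r1 := by linarith [hs1.le]
  have hr20 : 0 ≤ r2 := by linarith [hs2.le]
  have hBpos : (0 : ℝ) < B.card := Nat.cast_pos.2 (bohr_card_pos hr10)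
  have hB2pos : (0 : ℝ) < B2.card := Nat.cast_pos.2 (bohr_card_pos hr20)
  -- choose a centre that is dense at both scales
  set A0 := (bohr Γ ρ).filter fun u => a0 + u ∈ A with hA0
  set X0 := bohr Γ (ρ + μ) with hX0
  have hX0ne : X0.Nonempty := Finset.card_pos.1 (bohr_card_pos (by linarith [hs.le]))
  have hA0c : α * (bohr Γ ρ).card ≤ A0.card := hdense
  have hav : ∀ r, r ≤ μ → α * (bohr Γ ρ).card * (bohr Γ r).card
      ≤ ∑ x ∈ X0, hits A (a0 + x) (bohr Γ r) := fun r hr =>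
    (mul_le_mul_of_nonneg_right hA0c (by positivity)).trans
      (average_hits A A0 X0 (bohr Γ r) a0 (fun u hu => (Finset.mem_filter.1 hu).2)
        (fun u hu v hv => sub_mem_bohr (Finset.mem_filter.1 hu).1 hv (by linarith)))
  obtain ⟨x, -, hxmax⟩ := Finset.exists_max_image X0
    (fun x => hits A (a0 + x) B / B.card + hits A (a0 + x) B2 / B2.card) hX0ne
  set c := a0 + x with hc
  have hsumd : 1.9995 * α ≤ hits A c B / B.card + hits A c B2 / B2.card := by
    have h1 := (le_div_iff₀ hBpos).2 (hav r1 (by linarith))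
    have h2 := (le_div_iff₀ hB2pos).2 (hav r2 (by linarith))
    rw [Finset.sum_div] at h1 h2
    have h3 := Finset.sum_le_sum hxmax
    rw [Finset.sum_add_distrib, Finset.sum_const, nsmul_eq_mul] at h3
    have h4 := hs.out
    rw [← hX0] at h4
    have hX0pos : (0 : ℝ) < X0.card := Nat.cast_pos.2 (Finset.card_pos.2 hX0ne)
    refine le_of_mul_le_mul_left ?_ hX0pos
    nlinarith [mul_le_mul_of_nonneg_left h4 hαpos.le]
  have hd1' : 0.9975 * α * B.card ≤ hits A c B := by
    have h := (div_lt_iff₀ hB2pos).2 (hinc2 c)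
    rw [← le_div_iff₀ hBpos]
    linarith
  have hd2' : 0.9975 * α * B2.card ≤ hits A c B2 := by
    have h := (div_lt_iff₀ hBpos).2 (hinc1 c)
    rw [← le_div_iff₀ hB2pos]
    linarith
  set A1 := B.filter fun v => c + v ∈ A with hA1
  set A2 := B2.filter fun v => c + v ∈ A with hA2
  set n : ℝ := (A1.card : ℝ) with hn
  have hnlow : 0.9975 * α * B.card ≤ n := hd1'
  have hA2low : 0.9975 * α * B2.card ≤ (A2.card : ℝ) := hd2'
  have hnpos : 0 < n := lt_of_lt_of_le (by positivity) hnlow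
  set nrm := n ^ 2 / (B.card : ℝ) with hnrm
  by_cases hbig : nrm < 4
  · refine Or.inl ⟨r1, by linarith, ?_⟩
    rw [hnrm, div_lt_iff₀ hBpos] at hbig
    refine le_of_mul_le_mul_right ?_ hBpos
    have h := pow_le_pow_left₀ (by positivity) hnlow 2
    nlinarith [sq_nonneg (α * (B.card : ℝ))]
  push Not at hbig
  -- the boundary of the large Bohr set is negligible
  set inner := bohr Γ (r1 - μ1 / 4) with hinner
  have hbdry : ((A1 \ inner).card : ℝ) ≤ 1 / 1000 * n := by
    set Y := bohr Γ (r1 + μ1) \ bohr Γ (r1 - μ1) with hY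
    have h1 : ((A1 \ inner).card : ℝ) * B2.card ≤ ∑ y ∈ Y, hits A (c + y) B2 := by
      refine average_hits A (A1 \ inner) Y B2 c
        (fun u hu => (Finset.mem_filter.1 (Finset.mem_sdiff.1 hu).1).2) ?_
      intro u hu v hv
      obtain ⟨hu1, hu2⟩ := Finset.mem_sdiff.1 hu
      refine Finset.mem_sdiff.2 ⟨sub_mem_bohr (Finset.mem_filter.1 hu1).1 hv (by linarith), ?_⟩
      intro hbad
      refine hu2 ?_
      have := add_mem_bohr hbad hv (show r1 - μ1 + r2 ≤ r1 - μ1 / 4 by linarith)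
      simpa using this
    have h2 : ∑ y ∈ Y, hits A (c + y) B2 ≤ Y.card * (1.002 * α * B2.card) := by
      rw [← nsmul_eq_mul, ← Finset.sum_const]
      exact Finset.sum_le_sum fun y _ => (hinc2 _).le
    have hYc : (Y.card : ℝ) ≤ B.card / 4000 := by
      have hsub : bohr Γ (r1 - μ1) ⊆ bohr Γ (r1 + μ1) := bohr_mono (by linarith)
      have he : (Y.card : ℝ) + (bohr Γ (r1 - μ1)).card = (bohr Γ (r1 + μ1)).card := by
        exact_mod_cast Finset.card_sdiff_add_card_eq_card hsub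
      have h := hs1.ratio
      have hle : ((bohr Γ (r1 - μ1)).card : ℝ) ≤ B.card :=
        Nat.cast_le.2 (Finset.card_le_card (bohr_mono (by linarith)))
      linarith
    have h3 : ((A1 \ inner).card : ℝ) ≤ Y.card * (1.002 * α) := by
      refine le_of_mul_le_mul_right ?_ hB2pos
      linarith [h1.trans h2]
    have h4 := mul_le_mul_of_nonneg_right hYc (show 0 ≤ 1.002 * α by positivity)
    have : 0 ≤ α * (B.card : ℝ) := by positivity
    linarith
  set Γh := dilF half Γ with hΓh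
  have hdh : Γh.card + 1 ≤ d := le_trans (Nat.succ_le_succ (card_dilF half Γ)) hd
  obtain ⟨r3, hr3a, hr3b, hs3⟩ := exists_stable Γh hdh (show 0 < μ2 / 2 by positivity)
  set μ3 := μ2 / 2 / (96000 * (d : ℝ)) with hμ3d
  set Z := bohr Γ (μ1 / 4) with hZ
  set E := bohr Γh r2 with hE
  set E' := bohr Γh (r2 + μ2) with hE'
  set D := bohr Γh r3 with hD
  have hflat : ∀ z ∈ Z, (1 - 1 / 1000) * n ≤ ((A1.filter fun u => u + z ∈ B).card : ℝ) := by
    intro z hz
    have hsub : A1 ⊆ (A1.filter fun u => u + z ∈ B) ∪ (A1 \ inner) := by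
      intro u hu
      by_cases h : u ∈ inner
      · exact Finset.mem_union_left _ (Finset.mem_filter.2 ⟨hu, add_mem_bohr h hz (by linarith)⟩)
      · exact Finset.mem_union_right _ (Finset.mem_sdiff.2 ⟨hu, h⟩)
    have h1 : n ≤ ((A1.filter fun u => u + z ∈ B).card : ℝ) + (A1 \ inner).card := by
      rw [hn]; exact_mod_cast (Finset.card_le_card hsub).trans (Finset.card_union_le _ _)
    linarith
  have hinj : Function.Injective fun y : G => y + y := by
    intro a b hab
    have key : ∀ y : G, half (y + y) = y := fun y => by rw [map_add]; exact hhalf y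
    have := congrArg half hab
    rwa [key, key] at this
  have hfree' : ∀ p ∈ A1, ∀ y ∈ A2, ∀ z ∈ A1, p + z = y + y → p = y := by
    intro p hp y hy z hz h
    have := hfree _ (Finset.mem_filter.1 hp).2 _ (Finset.mem_filter.1 hy).2 _
      (Finset.mem_filter.1 hz).2
      (show c + p + (c + z) = c + y + (c + y) by rw [add_add_add_comm, h, add_add_add_comm])
    exact add_left_cancel this
  have hE'card : (E'.card : ℝ) ≤ 2 ^ (L + 2) * A2.card := by
    have h1 := hs2.out
    rw [← card_bohr_dil half Γ (r2 + μ2), ← hΓh, ← hE', ← hB2] at h1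
    have h2 := mul_le_mul_of_nonneg_left hA2low (show (0 : ℝ) ≤ 2 ^ (L + 2) by positivity)
    have h3 := mul_le_mul_of_nonneg_right hα hB2pos.le
    rw [pow_add] at h2 ⊢
    linarith
  obtain ⟨q, hq0, hq, hmom⟩ := large_moment A1 A2 B Z E E' D (Finset.filter_subset _ _)
    (show (0 : ℝ) ≤ 1 / 1000 by norm_num) le_rfl hnrm hbig (fun _ h => neg_mem_bohr h)
    (fun _ h => neg_mem_bohr h) hflat hinj hfree'
    (fun y hy => by
      rw [hE, mem_bohr_dil]
      have : half (y + y) = y := by rw [map_add]; exact hhalf y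
      rw [this]; exact (Finset.mem_filter.1 hy).1)
    (bohr_dil_subset half hhalf (by linarith))
    (Finset.card_pos.1 (bohr_card_pos (by linarith)))
    (Finset.card_pos.1 (bohr_card_pos (by linarith)))
    (fun p hp v hv w hw => sub_mem_bohr hp (sub_mem_bohr hw hv le_rfl) (by linarith))
    (fun v hv w hw => bohr_dil_subset half hhalf (show 2 * (r3 + r3) ≤ μ1 / 4 by linarith)
      (sub_mem_bohr hw hv le_rfl))
    hE'card
  have hμ3le : μ3 ≤ 1 := by
    have : μ3 ≤ μ2 / 2 := div_le_self (by positivity) hd96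
    linarith
  have hdens : (A1.card : ℝ) ≤ 2 ^ (L + 1) * nrm := by
    rw [hnrm, ← hn, mul_div_assoc', le_div_iff₀ hBpos, pow_succ]
    have h1 := mul_le_mul_of_nonneg_left hnlow (show (0 : ℝ) ≤ 2 ^ L by positivity)
    have h2 := mul_le_mul_of_nonneg_right hα hBpos.le
    have h3 : (B.card : ℝ) ≤ 2 ^ L * 2 * n := by linarith
    calc n * B.card ≤ n * (2 ^ L * 2 * n) := mul_le_mul_of_nonneg_left h3 hnpos.le
      _ = _ := by ring
  obtain ⟨Δ, hΔ, hincr⟩ := moment_increment A1 Γh hL hdh hs3 hμ3le (by linarith) hdens hq0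
    (by omega) hmom
  set Γ' := Γh ∪ Δ with hΓ'
  have hcard' : Γ'.card ≤ Γ.card + N := by
    refine (Finset.card_union_le _ _).trans ?_
    have := card_dilF half Γ
    rw [← hΓh] at this
    omega
  set τ0 := μ3 / (4 * 96000 ^ 2 * (d : ℝ) ^ 2 * N) with hτ0
  have hτ0pos : 0 < τ0 := by rw [hτ0]; have := hs3.pos; positivity
  obtain ⟨r6, hr6a, hr6b, hs6⟩ := exists_stable Γ' (show Γ'.card + 1 ≤ d + N by omega) hτ0pos
  obtain ⟨s, hs'⟩ := hincr r6 (by linarith [hs6.le, hs6.pos]) hr6b Γ' Finset.subset_union_left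
    Finset.subset_union_right
  refine Or.inr ⟨Γ', r6, _, c + s, hcard', hs6, ?_, ?_, ?_⟩
  · have h1 : τ0 ≤ μ3 := div_le_self hs3.pos.le (by
      have : (1 : ℝ) ≤ (d : ℝ) ^ 2 := one_le_pow₀ hd1
      nlinarith)
    refine (div_le_self hτ0pos.le ?_).trans (h1.trans hμ3le)
    push_cast; linarith
  · refine le_of_eq ?_
    simp only [radiusLoss, ← hN, hτ0, hμ3d, hμ2d, hμ1d]
    push_cast
    field_simp
    ring
  · set W := bohr Γ' r6 with hW
    have h1 : (((W.filter fun v => s + v ∈ A1)).card : ℝ) ≤ hits A (c + s) W := by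
      refine Nat.cast_le.2 (Finset.card_le_card ?_)
      intro v hv
      rw [Finset.mem_filter] at hv ⊢
      refine ⟨hv.1, ?_⟩
      rw [add_assoc]
      exact (Finset.mem_filter.1 hv.2).2
    refine le_trans ?_ (hs'.trans h1)
    refine mul_le_mul_of_nonneg_right ?_ (by positivity)
    have e : nrm / (A1.card : ℝ) = n / B.card := by rw [hnrm, ← hn]; field_simp
    rw [e, mul_div_assoc', le_div_iff₀ hBpos]
    nlinarith [mul_pos hαpos hBpos]

end Vale.Agent.P057.ThreeAP
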